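import Crest.Agent.N206.TW.Defs
import Crest.Agent.N206.TW.Thr

-- ▼ part N206/TW/Path
section

/-!
# Row 206, S0318: kept times along a root path, the sandwich lemma and the lower bound in a bag
(helper61)
-/

set_option autoImplicit false

namespace Crest.Agent.N206.TW

open Set

variable {V : Type} {k : ℕ}

/-- distance to an enumerated set -/
noncomputable def dA (d : V → V → ℝ) (α : Fin (k + 1) → V) (z : V) : ℝ := ⨅ c, d z (α c)

section dA

variable {d : V → V → ℝ} {α : Fin (k + 1) → V}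

theorem dA_le {z u : V} (hu : u ∈ range α) : dA d α z ≤ d z u := by
  obtain ⟨c, rfl⟩ := hu
  exact ciInf_le (Finite.bddBelow_range _) c

theorem exists_dA (d : V → V → ℝ) (α : Fin (k + 1) → V) (z : V) :
    ∃ u ∈ range α, dA d α z = d z u := by
  obtain ⟨c, hc⟩ := exists_eq_ciInf_of_finite (f := fun c => d z (α c))
  exact ⟨α c, ⟨c, rfl⟩, hc.symm⟩

theorem dA_nonneg (hd : PMet d) (z : V) : 0 ≤ dA d α z := by
  obtain ⟨u, -, h⟩ := exists_dA d α z
  rw [h]; exact hd.nonneg _ _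

theorem dA_eq_zero (hd : PMet d) {z : V} (hz : z ∈ range α) : dA d α z = 0 :=
  le_antisymm ((dA_le hz).trans_eq (hd.self z)) (dA_nonneg hd z)

theorem dA_tri (hd : PMet d) (x y : V) : dA d α x ≤ d x y + dA d α y := by
  obtain ⟨u, hu, h⟩ := exists_dA d α y
  rw [h]
  exact (dA_le hu).trans (hd.tri _ _ _)

end dA

/-- the features created at a node with adhesion `α` and bag `γ` -/
noncomputable def feat (d : V → V → ℝ) (α γ : Fin (k + 1) → V) :
    Option (Fin (k + 1) × Fin (k + 1)) → V → ℝ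
  | none => dA d α
  | some p => fun z => min (dA d α z) (max (d z (γ p.2) - d (γ p.1) (γ p.2) / 2) 0)

theorem feat_lip {d : V → V → ℝ} (hd : PMet d) (α γ : Fin (k + 1) → V)
    (φ : Option (Fin (k + 1) × Fin (k + 1))) (x y : V) :
    |feat d α γ φ x - feat d α γ φ y| ≤ d x y := by
  have key : ∀ x y, feat d α γ φ x ≤ d x y + feat d α γ φ y := by
    intro x y
    have h1 := dA_tri (α := α) hd x y
    cases φ with
    | none => exact h1
    | some p =>
      have h2 := hd.tri x y (γ p.2)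
      have h3 := hd.nonneg x y
      simp only [feat]
      rw [← min_add_add_left, ← max_add_add_left]
      exact min_le_min h1 (max_le_max (by linarith) (by linarith))
  have h1 := key x y
  have h2 := key y x
  rw [hd.comm y x] at h2
  exact abs_le.2 ⟨by linarith, by linarith⟩

theorem feat_eq_zero {d : V → V → ℝ} (hd : PMet d) (α γ : Fin (k + 1) → V)
    (φ : Option (Fin (k + 1) × Fin (k + 1))) {v : V} (hv : v ∈ range α) :
    feat d α γ φ v = 0 := by
  cases φ with
  | none => exact dA_eq_zero hd hv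
  | some p =>
    simp only [feat, dA_eq_zero hd hv]
    exact min_eq_left (le_max_right _ _)

/-- The adhesions `α`, `α'` look alike from the adhesion `α''` at all scales in `M`. -/
def Rel (d : V → V → ℝ) (W : ℝ) (M : Set ℝ) (α α' α'' : Fin (k + 1) → V) : Prop :=
  ∀ x ∈ M, 0 < x → ∀ u ∈ range α'', min (dA d α u) (x * W) ≤ 2 * dA d α' u + x / W

/-- The data along a root path of length `N`. -/
structure PathSys (V Fn : Type) (k : ℕ) (d : V → V → ℝ) (β C W : ℝ) (N : ℕ) where
  /-- adhesions -/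
  α : ℕ → Fin (k + 1) → V
  /-- bags -/
  γ : ℕ → Fin (k + 1) → V
  /-- disagreement of Boolean functions -/
  ρ : Fn → Fn → ℝ
  /-- vertices as Boolean functions -/
  ev : V → Fn
  /-- functions of the adhesion -/
  FA : ℕ → Set Fn
  /-- functions of the bag -/
  FB : ℕ → Set Fn
  /-- kept times -/
  K : ℕ → Finset ℕ
  /-- relevant scales -/
  M : ℕ → Set ℝ
  hd : PMet d
  hρ : PMet ρ
  up : ∀ x y, ρ (ev x) (ev y) ≤ C * d x y
  root : ∀ c c', α 0 c = α 0 c'
  adh_bag : ∀ j ≤ N, range (α j) ⊆ range (γ j)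
  adh_par : ∀ j < N, range (α (j + 1)) ⊆ range (γ j)
  sep : ∀ i l m, i ≤ l → l ≤ m → m ≤ N → ∀ z ∈ range (γ m), ∀ a ∈ range (α i),
    ∃ u ∈ range (α l), d z a = d z u + d u a
  ev_FB : ∀ j ≤ N, ∀ v ∈ range (γ j), ev v ∈ FB j
  FA_FB : ∀ j ≤ N, FA j ⊆ FB j
  FA_par : ∀ j < N, FA (j + 1) ⊆ FB j
  K_zero : K 0 = {0}
  K_new : ∀ l < N, l + 1 ∈ K (l + 1)
  K_sub : ∀ l < N, ∀ i ∈ K (l + 1), i = l + 1 ∨ i ∈ K l
  K_drop : ∀ l < N, ∀ j ∈ K l, j ∈ K (l + 1) ∨ ∃ i ∈ K l, ∃ i' ∈ K l, i ∈ K (l + 1) ∧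
    i' ∈ K (l + 1) ∧ i < j ∧ j < i' ∧ Rel d W (M (l + 1)) (α i) (α i') (α (l + 1))
  lam : ∀ i ≤ N, ∀ φ, ∃ Λ : Fn → ℝ, (∀ F ∈ FA i, Λ F = 0) ∧
    (∀ v, Λ (ev v) = β * feat d (α i) (γ i) φ v) ∧
    ∀ m ≤ N, i ∈ K m → ∀ F ∈ FB m, ∀ F' ∈ FB m, Λ F - Λ F' ≤ ρ F F'
  M_d : ∀ l ≤ N, 0 < l → ∀ a ∈ range (α l), ∀ b ∈ range (α l), d a b ∈ M l
  M_ρ : ∀ l ≤ N, 0 < l → ∀ F ∈ FA l, ∀ a ∈ range (α l), ρ F (ev a) ∈ M l

namespace PathSys

variable {Fn : Type} {d : V → V → ℝ} {β C W : ℝ} {N : ℕ} (P : PathSys V Fn k d β C W N)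

theorem dA_anti {i i' m : ℕ} (h : i ≤ i') (h' : i' ≤ m) (hm : m ≤ N) {z : V}
    (hz : z ∈ range (P.γ m)) : dA d (P.α i') z ≤ dA d (P.α i) z := by
  obtain ⟨a, ha, e⟩ := exists_dA d (P.α i) z
  obtain ⟨u, hu, e'⟩ := P.sep i i' m h h' hm z hz a ha
  have := dA_le (d := d) (z := z) hu
  linarith [P.hd.nonneg u a]

theorem K_le {l : ℕ} (hl : l ≤ N) : ∀ i ∈ P.K l, i ≤ l := by
  induction l with
  | zero => simp [P.K_zero]
  | succ l ih =>
    intro i hi
    rcases P.K_sub l hl i hi with h | h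
    · exact h.le
    · exact (ih (by omega) i h).trans (Nat.le_succ l)

theorem K_self {l : ℕ} (hl : l ≤ N) : l ∈ P.K l := by
  cases l with
  | zero => simp [P.K_zero]
  | succ l => exact P.K_new l hl

theorem K_zero_mem {l : ℕ} (hl : l ≤ N) : 0 ∈ P.K l := by
  induction l with
  | zero => simp [P.K_zero]
  | succ l ih =>
    rcases P.K_drop l hl 0 (ih (by omega)) with h | ⟨i, -, -, -, -, -, h, -⟩
    · exact h
    · omega

theorem K_anti {i m m' : ℕ} (h : i ≤ m) (h' : m ≤ m') (hm : m' ≤ N) (hi : i ∈ P.K m') :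
    i ∈ P.K m := by
  induction m', h' using Nat.le_induction with
  | base => exact hi
  | succ l hl ih =>
    rcases P.K_sub l hm i hi with e | e
    · omega
    · exact ih (by omega) e

theorem consec {t : ℕ} (ht : t ≤ N) : ∀ i ∈ P.K t, ∀ i' ∈ P.K t, i < i' →
    (∀ j ∈ P.K t, ¬ (i < j ∧ j < i')) →
    i' = i + 1 ∨ ∃ l, i' ≤ l ∧ l ≤ t ∧ Rel d W (P.M l) (P.α i) (P.α i') (P.α l) := by
  induction t with
  | zero =>
    intro i hi i' hi' h
    simp only [P.K_zero, Finset.mem_singleton] at hi hi'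
    omega
  | succ t ih =>
    intro i hi i' hi' h hc
    have ht' : t ≤ N := by omega
    have h1 := P.K_le ht i' hi'
    have hiK : i ∈ P.K t := (P.K_sub t ht i hi).resolve_left (by omega)
    rcases P.K_sub t ht i' hi' with e | hiK'
    · left
      have h2 : t ∈ P.K (t + 1) := by
        rcases P.K_drop t ht t (P.K_self ht') with h | ⟨_, _, j, hj, _, _, _, h, _⟩
        · exact h
        · have := P.K_le ht' j hj
          omega
      have h3 := hc t h2
      omega
    by_cases hc' : ∀ j ∈ P.K t, ¬ (i < j ∧ j < i')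
    · rcases ih ht' i hiK i' hiK' h hc' with e | ⟨l, h1, h2, h3⟩
      · exact Or.inl e
      · exact Or.inr ⟨l, h1, by omega, h3⟩
    push Not at hc'
    obtain ⟨j, hj, hj1, hj2⟩ := hc'
    rcases P.K_drop t ht j hj with e | ⟨a, -, b, hb, ha', hb', h2, h3, h4⟩
    · exact absurd ⟨hj1, hj2⟩ (hc j e)
    have h5 := hc a ha'
    have h6 := hc b hb'
    have h7 := P.K_le ht' b hb
    refine Or.inr ⟨t + 1, h1, le_rfl, fun x hx hx0 u hu => ?_⟩
    have hu' := P.adh_bag (t + 1) ht hu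
    have h8 := P.dA_anti (i := a) (i' := i) (by omega) (by omega) ht hu'
    have h9 := P.dA_anti (i := i') (i' := b) (by omega) (by omega) ht hu'
    have h10 := h4 x hx hx0 u hu
    have h11 : min (dA d (P.α i) u) (x * W) ≤ min (dA d (P.α a) u) (x * W) :=
      min_le_min h8 le_rfl
    linarith

/-- The sandwich lemma. -/
theorem sand {t j : ℕ} (ht : t ≤ N) (hj : j ≤ t) : j ∈ P.K t ∨ ∃ i ∈ P.K t, ∃ l, j < i ∧ i ≤ l ∧
    l ≤ t ∧ ∀ x ∈ P.M l, 0 < x → ∀ z ∈ range (P.γ t),
      min (dA d (P.α j) z) (x * W) ≤ 2 * dA d (P.α i) z + x / W := by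
  classical
  by_cases hK : j ∈ P.K t
  · exact Or.inl hK
  right
  have hj0 : 0 < j := Nat.pos_of_ne_zero fun e => hK (e ▸ P.K_zero_mem ht)
  have hjt : j < t := lt_of_le_of_ne hj fun e => hK (by rw [e]; exact P.K_self ht)
  obtain ⟨a, ha, ha'⟩ := ((P.K t).filter (· < j)).exists_max_image id
    ⟨0, by simp [P.K_zero_mem ht, hj0]⟩
  obtain ⟨b, hb, hb'⟩ := ((P.K t).filter (j < ·)).exists_min_image id
    ⟨t, by simp [P.K_self ht, hjt]⟩
  simp only [Finset.mem_filter, id, and_imp] at ha ha' hb hb'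
  rcases P.consec ht a ha.1 b hb.1 (by omega) (fun c hc h => by
    rcases lt_trichotomy c j with e | e | e
    · have := ha' c hc e; omega
    · exact hK (e ▸ hc)
    · have := hb' c hc e; omega) with e | ⟨l, h1, h2, h3⟩
  · omega
  refine ⟨b, hb.1, l, hb.2, h1, h2, fun x hx hx0 z hz => ?_⟩
  obtain ⟨c, hc, e⟩ := exists_dA d (P.α b) z
  obtain ⟨u, hu, e'⟩ := P.sep b l t h1 h2 ht z hz c hc
  have h4 := h3 x hx hx0 u hu
  have h5 := dA_le (d := d) (z := u) hc
  have h6 := P.dA_anti (i := a) (i' := j) ha.2.le hj ht hz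
  have h7 := dA_tri (α := P.α a) P.hd z u
  have h8 := P.hd.nonneg z u
  have h9 : min (dA d (P.α j) z) (x * W) ≤ d z u + min (dA d (P.α a) u) (x * W) := by
    rw [← min_add_add_left]
    exact min_le_min (by linarith) (by linarith)
  linarith

theorem r1_aux (hβ : 0 ≤ β) (hW : 24 ≤ W) {j i : ℕ} (hj : j ≤ N) (hi : i ≤ j) {a b : V}
    (ha : a ∈ range (P.γ j)) (hb : b ∈ range (P.γ j)) (hD : 0 < d a b)
    (h1 : d a b / 10 ≤ dA d (P.α i) a)
    (h2 : ∀ l, i < l → l ≤ j → dA d (P.α l) a < d a b / 10 ∧ dA d (P.α l) b < d a b / 10) :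
    β / 40 * d a b ≤ P.ρ (P.ev a) (P.ev b) := by
  have hd := P.hd
  have h3 : ∀ l, i < l → l ≤ j → ∃ a' ∈ range (P.α l), ∃ b' ∈ range (P.α l),
      d a a' < d a b / 10 ∧ d b b' < d a b / 10 := fun l hl hl' => by
    obtain ⟨a', ha', e⟩ := exists_dA d (P.α l) a
    obtain ⟨b', hb', e'⟩ := exists_dA d (P.α l) b
    exact ⟨a', ha', b', hb', e ▸ (h2 l hl hl').1, e' ▸ (h2 l hl hl').2⟩
  have h4 : ∃ i' ∈ P.K j, i ≤ i' ∧ d a b / 40 ≤ dA d (P.α i') a := by
    rcases P.sand hj hi with h | ⟨i', hi', l, e1, e2, e3, e4⟩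
    · exact ⟨i, h, le_rfl, by linarith⟩
    obtain ⟨a', ha', b', hb', f1, f2⟩ := h3 l (by omega) e3
    have t1 := hd.tri a a' b
    have t2 := hd.tri a' b' b
    have t3 := hd.tri a' a b'
    have t4 := hd.tri a b b'
    rw [hd.comm b' b] at t2
    rw [hd.comm a' a] at t3
    have hx : 0 < d a' b' := by linarith
    have h5 := e4 _ (P.M_d l (by omega) (by omega) a' ha' b' hb') hx a ha
    have h6 : d a b / 10 ≤ min (dA d (P.α i) a) (d a' b' * W) := le_min h1 (by nlinarith)
    have h7 : d a' b' / W ≤ d a b / 20 := by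
      rw [div_le_iff₀ (by linarith)]; nlinarith
    exact ⟨i', hi', e1.le, by linarith⟩
  obtain ⟨i', hi', e1, e2⟩ := h4
  have hij := P.K_le hj i' hi'
  have h5 : ∃ a' ∈ range (P.γ i'), ∃ b' ∈ range (P.γ i'),
      d a a' < d a b / 10 ∧ d b b' < d a b / 10 := by
    rcases hij.eq_or_lt with e | e
    · subst e
      exact ⟨a, ha, b, hb, by rw [hd.self]; linarith, by rw [hd.self]; linarith⟩
    · obtain ⟨a', ha', b', hb', f⟩ := h3 (i' + 1) (by omega) e
      exact ⟨a', P.adh_par i' (by omega) ha', b', P.adh_par i' (by omega) hb', f⟩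
  obtain ⟨_, ⟨c, rfl⟩, _, ⟨c', rfl⟩, f1, f2⟩ := h5
  obtain ⟨Λ, -, hΛ, hΛ'⟩ := P.lam i' (by omega) (some (c, c'))
  have h6 := hΛ' j hj hi' _ (P.ev_FB j hj a ha) _ (P.ev_FB j hj b hb)
  rw [hΛ, hΛ] at h6
  simp only [feat] at h6
  set a' := P.γ i' c
  set b' := P.γ i' c'
  have t1 := hd.tri a a' b
  have t2 := hd.tri a' b' b
  have t3 := hd.tri a' a b'
  have t4 := hd.tri a b b'
  have t5 := hd.tri a b' b
  rw [hd.comm b' b] at t2 t5
  rw [hd.comm a' a] at t3
  have h7 : min (dA d (P.α i') b) (max (d b b' - d a' b' / 2) 0) = 0 := by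
    rw [max_eq_right (by linarith), min_eq_right (dA_nonneg hd b)]
  have h8 : d a b / 40 ≤ min (dA d (P.α i') a) (max (d a b' - d a' b' / 2) 0) :=
    le_min e2 (le_max_of_le_left (by linarith))
  rw [h7] at h6
  nlinarith

/-- (R1) The lower bound inside a bag. -/
theorem r1 (hβ : 0 ≤ β) (hW : 24 ≤ W) {j : ℕ} (hj : j ≤ N) {a b : V}
    (ha : a ∈ range (P.γ j)) (hb : b ∈ range (P.γ j)) :
    β / 40 * d a b ≤ P.ρ (P.ev a) (P.ev b) := by
  classical
  have hd := P.hd
  rcases (hd.nonneg a b).eq_or_lt with hD | hD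
  · rw [← hD, mul_zero]; exact P.hρ.nonneg _ _
  let Q : ℕ → Prop := fun i => d a b / 10 ≤ dA d (P.α i) a ∨ d a b / 10 ≤ dA d (P.α i) b
  have h0 : Q 0 := by
    obtain ⟨_, ⟨c, rfl⟩, e⟩ := exists_dA d (P.α 0) a
    obtain ⟨_, ⟨c', rfl⟩, e'⟩ := exists_dA d (P.α 0) b
    have := hd.tri a (P.α 0 c) b
    rw [P.root c' c, hd.comm] at e'
    by_contra hn
    simp only [Q, not_or, not_le] at hn
    linarith [hn.1, hn.2]
  have h1 : Q (Nat.findGreatest Q j) := Nat.findGreatest_spec (Nat.zero_le j) h0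
  have h2 : ∀ l, Nat.findGreatest Q j < l → l ≤ j →
      dA d (P.α l) a < d a b / 10 ∧ dA d (P.α l) b < d a b / 10 := fun l hl hl' => by
    simpa only [Q, not_or, not_le] using Nat.findGreatest_is_greatest hl hl'
  have h3 : Nat.findGreatest Q j ≤ j := Nat.findGreatest_le j
  generalize Nat.findGreatest Q j = i at h1 h2 h3
  rcases h1 with h | h
  · exact P.r1_aux hβ hW hj h3 ha hb hD h h2
  · rw [hd.comm a b] at hD h h2 ⊢
    rw [P.hρ.comm]
    exact P.r1_aux hβ hW hj h3 hb ha hD h fun l hl hl' => (h2 l hl hl').symm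

end PathSys

end Crest.Agent.N206.TW
private theorem rz_ce60ffe330 : type_of% @_root_.Crest.Agent.N206.TW.feat.eq_1 := @_root_.Crest.Agent.N206.TW.feat.eq_1 -- L47
end

-- ▼ part N206/TW/Trail
section

/-!
# Row 206, S0318: the lower bound along a root path (helper61)
-/

set_option autoImplicit false

namespace Crest.Agent.N206.TW

open Set

variable {V Fn : Type} {k : ℕ} {d : V → V → ℝ} {β C W : ℝ} {N : ℕ}

/-- A sequence of Boolean functions of the adhesions `j₀ ≤ j ≤ N`, ending at the vertex `y`, with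
the nearest vertices `a j`. -/
structure Trail (P : PathSys V Fn k d β C W N) (j₀ : ℕ) (y : V) (F : ℕ → Fn) (a : ℕ → V) :
    Prop where
  pos : 0 < j₀
  hy : y ∈ range (P.γ N)
  hF : ∀ j, j₀ ≤ j → j ≤ N → F j ∈ P.FA j
  ha : ∀ j, j₀ ≤ j → j ≤ N → a j ∈ range (P.α j)
  hmin : ∀ j, j₀ ≤ j → j ≤ N → ∀ u ∈ range (P.α j), P.ρ (F j) (P.ev (a j)) ≤ P.ρ (F j) (P.ev u)
  F_last : F (N + 1) = P.ev y
  a_last : a (N + 1) = y

namespace Trail

variable {P : PathSys V Fn k d β C W N} {j₀ : ℕ} {y : V} {F : ℕ → Fn} {a : ℕ → V}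

/-- cost between the times `i` and `l` -/
noncomputable def G (P : PathSys V Fn k d β C W N) (F : ℕ → Fn) (i l : ℕ) : ℝ :=
  ∑ m ∈ Finset.Ico i l, P.ρ (F m) (F (m + 1))

theorem G_nonneg (i l : ℕ) : 0 ≤ G P F i l := Finset.sum_nonneg fun _ _ => P.hρ.nonneg _ _

theorem G_add {i l m : ℕ} (h : i ≤ l) (h' : l ≤ m) : G P F i l + G P F l m = G P F i m :=
  Finset.sum_Ico_consecutive _ h h'

theorem G_succ {i l : ℕ} (h : i ≤ l) : G P F i (l + 1) = G P F i l + P.ρ (F l) (F (l + 1)) :=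
  Finset.sum_Ico_succ_top h _

theorem rho_le_G {i l : ℕ} (h : i ≤ l) : P.ρ (F i) (F l) ≤ G P F i l := by
  induction l, h using Nat.le_induction with
  | base => simp [G, P.hρ.self]
  | succ l hl ih => rw [G_succ hl]; linarith [P.hρ.tri (F i) (F l) (F (l + 1))]

theorem F_next (T : Trail P j₀ y F a) {m : ℕ} (h : j₀ ≤ m) (h' : m ≤ N) :
    F (m + 1) ∈ P.FB m := by
  rcases h'.eq_or_lt with e | e
  · subst e; rw [T.F_last]; exact P.ev_FB _ le_rfl _ T.hy
  · exact P.FA_par m e (T.hF _ (by omega) e)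

theorem a_next (T : Trail P j₀ y F a) {m : ℕ} (h : j₀ ≤ m) (h' : m ≤ N) :
    a (m + 1) ∈ range (P.γ m) := by
  rcases h'.eq_or_lt with e | e
  · subst e; rw [T.a_last]; exact T.hy
  · exact P.adh_par m e (T.ha _ (by omega) e)

/-- the feature inequality -/
theorem feature (T : Trail P j₀ y F a) {i t : ℕ} (h : j₀ ≤ i) (ht : t ≤ N) (hi : i ∈ P.K t) :
    β * dA d (P.α i) (a (t + 1)) ≤ G P F i (t + 1) + P.ρ (F (t + 1)) (P.ev (a (t + 1))) := by
  have hit := P.K_le ht i hi
  obtain ⟨Λ, h0, h1, h2⟩ := P.lam i (by omega) none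
  have h3 : ∀ m, i ≤ m → m ≤ t + 1 → Λ (F m) ≤ G P F i m := by
    intro m hm
    induction m, hm using Nat.le_induction with
    | base => intro _; simp [G, h0 _ (T.hF i h (by omega))]
    | succ m hm ih =>
      intro hm'
      have h4 := h2 m (by omega) (P.K_anti hm (by omega) ht hi) _ (T.F_next (by omega) (by omega))
        _ (P.FA_FB m (by omega) (T.hF m (by omega) (by omega)))
      rw [G_succ hm, P.hρ.comm]
      linarith [ih (by omega)]
  have h4 := h2 t ht hi _ (P.ev_FB t ht _ (T.a_next (by omega) ht)) _ (T.F_next (by omega) ht)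
  rw [h1, P.hρ.comm] at h4
  have h5 := h3 (t + 1) (by omega) le_rfl
  simp only [feat] at h4
  linarith

/-- the feature inequality through the sandwich lemma -/
theorem sandwich (T : Trail P j₀ y F a) (hβ : 0 ≤ β) (hW : 0 < W) {j t : ℕ} (h : j₀ ≤ j)
    (hj : j ≤ t) (ht : t ≤ N) {lo hi : ℝ} (hlo : 0 ≤ lo) (hhi : 0 ≤ hi)
    (hq : ∀ m, j < m → m ≤ t → lo < P.ρ (F m) (P.ev (a m)) ∧ P.ρ (F m) (P.ev (a m)) < hi) :
    β * min (dA d (P.α j) (a (t + 1))) (lo * W) ≤
      2 * (G P F j (t + 1) + P.ρ (F (t + 1)) (P.ev (a (t + 1)))) + β * (hi / W) := by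
  have h0 := G_nonneg (P := P) (F := F) j (t + 1)
  have h1 := P.hρ.nonneg (F (t + 1)) (P.ev (a (t + 1)))
  have h2 : 0 ≤ β * (hi / W) := by positivity
  rcases P.sand ht hj with e | ⟨i, hi', l, e1, e2, e3, e4⟩
  · have h3 := T.feature h ht e
    have h4 := mul_le_mul_of_nonneg_left (min_le_left (dA d (P.α j) (a (t + 1))) (lo * W)) hβ
    linarith
  · obtain ⟨q1, q2⟩ := hq l (by omega) e3
    have h3 := e4 _ (P.M_ρ l (by omega) (by omega) _ (T.hF l (by omega) (by omega)) _
      (T.ha l (by omega) (by omega))) (hlo.trans_lt q1) _ (T.a_next (by omega) ht)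
    have h4 := T.feature (i := i) (by omega) ht hi'
    have h5 := G_add (P := P) (F := F) e1.le (show i ≤ t + 1 by omega)
    have h6 := G_nonneg (P := P) (F := F) j i
    have h7 : min (dA d (P.α j) (a (t + 1))) (lo * W) ≤
        2 * dA d (P.α i) (a (t + 1)) + hi / W :=
      ((min_le_min le_rfl (mul_le_mul_of_nonneg_right q1.le hW.le)).trans h3).trans (by gcongr)
    have h8 := mul_le_mul_of_nonneg_left h7 hβ
    linarith

/-- comparing the nearest vertices at two times -/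
theorem dist_le (T : Trail P j₀ y F a) (hβ : 0 ≤ β) (hW : 24 ≤ W) {j l : ℕ} (h : j₀ ≤ j)
    (hj : j ≤ N) (hl : j ≤ l) : β / 40 * d (a j) (a l) ≤ (β / 40 + C) * dA d (P.α j) (a l) +
      P.ρ (F j) (P.ev (a j)) + G P F j l + P.ρ (F l) (P.ev (a l)) := by
  obtain ⟨u, hu, e⟩ := exists_dA d (P.α j) (a l)
  have h1 := P.r1 hβ hW hj (P.adh_bag j hj (T.ha j h hj)) (P.adh_bag j hj hu)
  have h2 := P.hρ.tri (P.ev (a j)) (F j) (P.ev u)
  have h3 := P.hρ.tri (F j) (F l) (P.ev u)
  have h4 := P.hρ.tri (F l) (P.ev (a l)) (P.ev u)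
  have h5 := P.up (a l) u
  have h6 := rho_le_G (P := P) (F := F) hl
  have h7 := P.hd.tri (a j) u (a l)
  rw [P.hd.comm u] at h7
  rw [P.hρ.comm _ (F j)] at h2
  have h8 := mul_le_mul_of_nonneg_left h7 (show 0 ≤ β / 40 by positivity)
  rw [e]
  linarith

theorem step_le (T : Trail P j₀ y F a) (hβ : 0 ≤ β) (hW : 24 ≤ W) {t : ℕ} (h : j₀ ≤ t)
    (ht : t ≤ N) : β / 40 * d (a t) (a (t + 1)) ≤ P.ρ (F t) (P.ev (a t)) +
      P.ρ (F t) (F (t + 1)) + P.ρ (F (t + 1)) (P.ev (a (t + 1))) := by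
  have h1 := P.r1 hβ hW ht (P.adh_bag t ht (T.ha t h ht)) (T.a_next h ht)
  have h2 := P.hρ.tri (P.ev (a t)) (F t) (P.ev (a (t + 1)))
  have h3 := P.hρ.tri (F t) (F (t + 1)) (P.ev (a (t + 1)))
  rw [P.hρ.comm _ (F t)] at h2
  linarith

/-- At the first time when the error rises, drops, or the trail has travelled, the cost is large. -/
theorem stop (T : Trail P j₀ y F a) {M K : ℝ} (hβ : 0 < β) (hβ1 : β ≤ 1) (hC : 0 ≤ C)
    (hM : β * M = 4 * (β + 2 * C)) (hK : 2 * M * K = 1) (hW1 : 4 * C * M ≤ W)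
    (hW2 : 4 * M * (M + 2) ≤ β * W) {j t : ℕ} (h : j₀ ≤ j) (hj : j ≤ t) (ht : t ≤ N) {e : ℝ}
    (he : e = P.ρ (F j) (P.ev (a j))) (he0 : 0 < e)
    (hq : ∀ m, j < m → m ≤ t → e / M < P.ρ (F m) (P.ev (a m)) ∧ P.ρ (F m) (P.ev (a m)) < M * e)
    (hs : ¬ (e / M < P.ρ (F (t + 1)) (P.ev (a (t + 1))) ∧
        P.ρ (F (t + 1)) (P.ev (a (t + 1))) < M * e) ∨
      e / M * W / 2 ≤ dA d (P.α j) (a (t + 1))) :
    4 * K * e ≤ G P F j (t + 1) + K * P.ρ (F (t + 1)) (P.ev (a (t + 1))) := by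
  have hM4 : 4 ≤ M := by nlinarith
  have hM0 : 0 < M := by linarith
  have hW0 : 0 < W := by nlinarith
  have hWM : 4 * M * (M + 2) ≤ W := by nlinarith
  have hK0 : 0 < K := by nlinarith
  have hS := T.sandwich hβ.le hW0 h hj ht (lo := e / M) (hi := M * e) (by positivity)
    (by positivity) hq
  have hG := G_nonneg (P := P) (F := F) j (t + 1)
  have hE := P.hρ.nonneg (F (t + 1)) (P.ev (a (t + 1)))
  obtain ⟨u, hu, eu⟩ := exists_dA d (P.α j) (a (t + 1))
  have h1 := T.hmin j h (by omega) u hu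
  have h2 := P.hρ.tri (F j) (F (t + 1)) (P.ev u)
  have h3 := P.hρ.tri (F (t + 1)) (P.ev (a (t + 1))) (P.ev u)
  have h4 := P.up (a (t + 1)) u
  have h5 := rho_le_G (P := P) (F := F) (show j ≤ t + 1 by omega)
  rw [← eu] at h4
  set g := G P F j (t + 1)
  set e' := P.ρ (F (t + 1)) (P.ev (a (t + 1)))
  set D := dA d (P.α j) (a (t + 1))
  obtain ⟨x, hx⟩ : ∃ x, x = e / M := ⟨_, rfl⟩
  have hex : e = M * x := by rw [hx]; field_simp
  have hx0 : 0 < x := by rw [hx]; positivity
  have hKe : 4 * K * e = 2 * x := by rw [hex]; linear_combination 2 * x * hK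
  obtain ⟨z, hz⟩ : ∃ z, z = M * e / W := ⟨_, rfl⟩
  have hzW : z * W = M * e := by rw [hz]; field_simp
  have hz0 : 0 ≤ z := by rw [hz]; positivity
  rw [← hx] at hS hs
  rw [← hz] at hS
  rw [hKe]
  by_cases c1 : M * e ≤ e'
  · have : K * (M * e) ≤ K * e' := mul_le_mul_of_nonneg_left c1 hK0.le
    nlinarith
  push Not at c1
  have hKe' : 0 ≤ K * e' := by positivity
  have hze : z ≤ e := by
    by_contra hn
    push Not at hn
    nlinarith
  by_cases c2 : x * W / 2 ≤ D
  · have h6 : x * W / 2 ≤ min D (x * W) := le_min c2 (by nlinarith)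
    have h7 := mul_le_mul_of_nonneg_left h6 hβ.le
    have h8 : 4 * M * (M + 2) * x ≤ β * W * x := mul_le_mul_of_nonneg_right hW2 hx0.le
    have h9 : β * z ≤ z := by nlinarith
    nlinarith
  push Not at c2
  have c3 : e' ≤ x := by
    rcases hs with hs | hs
    · by_contra hn
      exact hs ⟨not_le.1 hn, c1⟩
    · linarith
  rw [min_eq_left (by nlinarith)] at hS
  have h6 : C * z ≤ e / 4 := by
    by_contra hn
    push Not at hn
    nlinarith
  have h7 : β * e ≤ β * (g + e') + C * (β * D) := by nlinarith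
  have h8 : C * (β * D) ≤ C * (2 * (g + e') + β * z) := mul_le_mul_of_nonneg_left hS hC
  have h9 : β * (C * z) ≤ β * (e / 4) := mul_le_mul_of_nonneg_left h6 hβ.le
  have h10 : β * (3 * M * x) ≤ β * (M * (g + x)) := by nlinarith
  have h11 : 3 * M * x ≤ M * (g + x) := le_of_mul_le_mul_left h10 hβ
  nlinarith

/-- (P') The cost of a trail dominates the distance travelled and the initial error. -/
theorem main (T : Trail P j₀ y F a) {M K κ : ℝ} (hβ : 0 < β) (hβ1 : β ≤ 1) (hC : 0 ≤ C)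
    (hM : β * M = 4 * (β + 2 * C)) (hK : 2 * M * K = 1) (hW1 : 4 * C * M ≤ W)
    (hW2 : 4 * M * (M + 2) ≤ β * W) (hκ : 0 ≤ κ) (hκ1 : 4 * κ ≤ K)
    (hκ2 : κ * ((β / 40 + C) * W + 1 + 2 * M) ≤ K) {j : ℕ} (h : j₀ ≤ j) (hj : j ≤ N + 1) :
    κ * (β / 40 * d y (a j)) + K * P.ρ (F j) (P.ev (a j)) ≤ G P F j (N + 1) := by
  classical
  have hM4 : 4 ≤ M := by nlinarith
  have hW24 : 24 ≤ W := by nlinarith
  have hK0 : 0 < K := by nlinarith
  have hK1 : K ≤ 1 := by nlinarith
  induction hn : N + 1 - j using Nat.strong_induction_on generalizing j with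
  | _ n ih =>
  rcases hj.eq_or_lt with e | hj'
  · subst e
    simp [G, T.F_last, T.a_last, P.hd.self, P.hρ.self]
  have hjN : j ≤ N := by omega
  have key : ∀ t, j ≤ t → t ≤ N → κ * (β / 40 * d (a j) (a (t + 1))) +
      K * P.ρ (F j) (P.ev (a j)) ≤ G P F j (t + 1) + K * P.ρ (F (t + 1)) (P.ev (a (t + 1))) →
      κ * (β / 40 * d y (a j)) + K * P.ρ (F j) (P.ev (a j)) ≤ G P F j (N + 1) := by
    intro t h1 h2 h3
    have h4 := ih (N + 1 - (t + 1)) (by omega) (j := t + 1) (by omega) (by omega) rfl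
    have h5 := G_add (P := P) (F := F) (show j ≤ t + 1 by omega) (show t + 1 ≤ N + 1 by omega)
    have h6 := P.hd.tri y (a (t + 1)) (a j)
    rw [P.hd.comm (a (t + 1))] at h6
    have h7 := mul_le_mul_of_nonneg_left h6 (show 0 ≤ κ * (β / 40) by positivity)
    linarith
  obtain ⟨e, he⟩ : ∃ e, e = P.ρ (F j) (P.ev (a j)) := ⟨_, rfl⟩
  rcases (he ▸ P.hρ.nonneg (F j) (P.ev (a j)) : 0 ≤ e).eq_or_lt with he0 | he0
  · refine key j le_rfl hjN ?_
    have h1 := mul_le_mul_of_nonneg_left (T.step_le hβ.le hW24 h hjN) hκ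
    have h2 := P.hρ.nonneg (F j) (F (j + 1))
    have h3 := P.hρ.nonneg (F (j + 1)) (P.ev (a (j + 1)))
    rw [← he, ← he0] at h1 ⊢
    rw [G_succ le_rfl, G, Finset.Ico_self, Finset.sum_empty]
    nlinarith
  have hex : ∃ t, j ≤ t ∧ (¬ (e / M < P.ρ (F (t + 1)) (P.ev (a (t + 1))) ∧
      P.ρ (F (t + 1)) (P.ev (a (t + 1))) < M * e) ∨ e / M * W / 2 ≤ dA d (P.α j) (a (t + 1))) := by
    refine ⟨N, hjN, Or.inl fun hh => ?_⟩
    rw [T.F_last, T.a_last, P.hρ.self] at hh
    exact absurd hh.1 (not_lt.2 (by positivity))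
  have hN : Nat.find hex ≤ N := Nat.find_min' hex ⟨hjN, Or.inl fun hh => by
    rw [T.F_last, T.a_last, P.hρ.self] at hh
    exact absurd hh.1 (not_lt.2 (by positivity))⟩
  obtain ⟨ht, hs⟩ := Nat.find_spec hex
  have hq : ∀ m, j < m → m ≤ Nat.find hex → (e / M < P.ρ (F m) (P.ev (a m)) ∧
      P.ρ (F m) (P.ev (a m)) < M * e) ∧ dA d (P.α j) (a m) < e / M * W / 2 := by
    intro m h1 h2
    obtain ⟨m, rfl⟩ : ∃ m', m = m' + 1 := ⟨m - 1, by omega⟩
    have := Nat.find_min hex (show m < Nat.find hex by omega)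
    push Not at this
    exact this (by omega)
  generalize Nat.find hex = t at hN ht hs hq
  refine key t ht hN ?_
  have h1 := T.stop hβ hβ1 hC hM hK hW1 hW2 h ht hN he he0 (fun m h1 h2 => (hq m h1 h2).1) hs
  have h2 : P.ρ (F t) (P.ev (a t)) ≤ M * e ∧ dA d (P.α j) (a t) ≤ W * e := by
    rcases ht.eq_or_lt with e' | e'
    · subst e'
      rw [dA_eq_zero P.hd (T.ha j h hjN), ← he]
      exact ⟨by nlinarith, by positivity⟩
    · obtain ⟨⟨-, q1⟩, q2⟩ := hq t e' le_rfl
      refine ⟨q1.le, q2.le.trans ?_⟩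
      have : e / M ≤ e := div_le_self he0.le (by linarith)
      nlinarith
  have h3 := T.dist_le hβ.le hW24 h hjN ht
  have h4 := T.step_le hβ.le hW24 (h.trans ht) hN
  have h5 := P.hd.tri (a j) (a t) (a (t + 1))
  have h6 := mul_le_mul_of_nonneg_left h5 (show 0 ≤ β / 40 by positivity)
  have h7 := mul_le_mul_of_nonneg_left h2.2 (show 0 ≤ β / 40 + C by positivity)
  have h8 := G_succ (P := P) (F := F) ht
  have h9 := G_nonneg (P := P) (F := F) j (t + 1)
  have h10 := P.hρ.nonneg (F (t + 1)) (P.ev (a (t + 1)))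
  rw [← he] at h3 ⊢
  have h11 : β / 40 * d (a j) (a (t + 1)) ≤ ((β / 40 + C) * W + 1 + 2 * M) * e +
      G P F j (t + 1) + P.ρ (F (t + 1)) (P.ev (a (t + 1))) := by linarith [h2.1]
  have h12 := mul_le_mul_of_nonneg_left h11 hκ
  have h13 := mul_le_mul_of_nonneg_right hκ2 he0.le
  have h14 := mul_le_mul_of_nonneg_right hκ1 h9
  have h15 := mul_le_mul_of_nonneg_right hκ1 h10
  have h16 := mul_le_mul_of_nonneg_right hK1 h9
  have h17 := mul_nonneg hK0.le h10
  linarith

end Trail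

end Crest.Agent.N206.TW
end

-- ▼ part N206/TW/Tree
section

/-!
# Row 206, S0318: rooting a tree decomposition (helper20)
-/

set_option autoImplicit false

namespace Crest.Agent.N206.TW

open Crest.GeometryTopology.GraphMetric Crest.Agent.R206.Iface534

theorem tree_rooted {ι : Type} (T : SimpleGraph ι) (hT : T.IsTree) (r : ι) :
    ∃ par : ι → ι, par r = r ∧ (∀ t, t ≠ r → T.dist (par t) r + 1 = T.dist t r) ∧
      ∀ a b, T.Adj a b → b = par a ∨ a = par b := by
  classical
  have hc := hT.connected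
  have hex : ∀ t, t ≠ r → ∃ a, T.Adj t a ∧ T.dist a r + 1 = T.dist t r := by
    intro t ht
    obtain ⟨p, hp⟩ := hc.exists_walk_length_eq_dist t r
    cases p with
    | nil => exact absurd rfl ht
    | @cons _ a _ h q =>
      refine ⟨a, h, le_antisymm ?_ ?_⟩
      · rw [← hp, SimpleGraph.Walk.length_cons]
        exact Nat.succ_le_succ (SimpleGraph.dist_le q)
      · obtain ⟨q', hq'⟩ := hc.exists_walk_length_eq_dist a r
        rw [← hq']
        exact SimpleGraph.dist_le (SimpleGraph.Walk.cons h q')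
  have huniq : ∀ t a a', T.Adj t a → T.Adj t a' → T.dist a r + 1 = T.dist t r →
      T.dist a' r + 1 = T.dist t r → a = a' := by
    intro t a a' h h' hd hd'
    obtain ⟨q, hq⟩ := hc.exists_walk_length_eq_dist a r
    obtain ⟨q', hq'⟩ := hc.exists_walk_length_eq_dist a' r
    have h1 : (SimpleGraph.Walk.cons h q).IsPath :=
      SimpleGraph.Walk.isPath_of_length_eq_dist _ (by rw [SimpleGraph.Walk.length_cons, hq, hd])
    have h2 : (SimpleGraph.Walk.cons h' q').IsPath :=
      SimpleGraph.Walk.isPath_of_length_eq_dist _ (by rw [SimpleGraph.Walk.length_cons, hq', hd'])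
    have h3 := (hT.existsUnique_path t r).unique h1 h2
    have h4 := congrArg SimpleGraph.Walk.snd h3
    simpa using h4
  choose f hf using hex
  let par : ι → ι := fun t => if h : t = r then r else f t h
  have hpar : ∀ t (h : t ≠ r), par t = f t h := fun t h => dif_neg h
  have key : ∀ a b, T.Adj a b → T.dist b r + 1 = T.dist a r → b = par a := by
    intro a b h hd
    have ha : a ≠ r := by
      rintro rfl
      simp at hd
    rw [hpar a ha]
    exact huniq a _ _ h (hf a ha).1 hd (hf a ha).2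
  refine ⟨par, dif_pos rfl, fun t ht => by rw [hpar t ht]; exact (hf t ht).2, fun a b h => ?_⟩
  rcases hT.dist_eq_dist_add_one_of_adj r h with h1 | h1
  · exact Or.inl (key a b h (by rw [T.dist_comm, T.dist_comm (u := a), h1]))
  · exact Or.inr (key b a h.symm (by rw [T.dist_comm, T.dist_comm (u := b), h1]))

theorem tree_key {ι : Type} {T : SimpleGraph ι} {par : ι → ι}
    (hadj : ∀ a b, T.Adj a b → b = par a ∨ a = par b) {S : Set ι} (l : ι) {x y : S}
    (p : (T.induce S).Walk x y) (hx : ∃ n, par^[n] x = l) (hy : ¬ ∃ n, par^[n] y = l) :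
    l ∈ S ∧ par l ∈ S := by
  induction p with
  | nil => exact absurd hx hy
  | @cons x x' y h q ih =>
    by_cases hx' : ∃ n, par^[n] x' = l
    · exact ih hx' hy
    · obtain ⟨n, hn⟩ := hx
      rcases hadj x x' h with h1 | h1
      · cases n with
        | zero =>
          have h2 : (x : ι) = l := hn
          exact ⟨h2 ▸ x.2, by rw [← h2, ← h1]; exact x'.2⟩
        | succ n => exact absurd ⟨n, by rw [h1]; exact hn⟩ hx'
      · exact absurd ⟨n + 1, by rw [Function.iterate_succ_apply, ← h1]; exact hn⟩ hx'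

theorem tree_enum {V : Type} (k : ℕ) (o : V) (S : Finset V) (ho : o ∈ S) (hS : S.card ≤ k + 1) :
    ∃ f : Fin (k + 1) → V, Set.range f = S := by
  refine ⟨fun i => if h : (i : ℕ) < S.card then (S.equivFin.symm ⟨i, h⟩ : V) else o, ?_⟩
  ext v
  constructor
  · rintro ⟨i, rfl⟩
    by_cases h : (i : ℕ) < S.card
    · simp only [dif_pos h]; exact (S.equivFin.symm ⟨i, h⟩).2
    · simp only [dif_neg h]; exact ho
  · intro hv
    have h := (S.equivFin ⟨v, hv⟩).2
    exact ⟨⟨S.equivFin ⟨v, hv⟩, lt_of_lt_of_le h hS⟩, by simp⟩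

theorem tree : TreeStmt := by
  classical
  intro k V _ G hG hdec ℓ hℓ
  obtain ⟨ι, hι, T, B, hT, hcov, hedge, hconn, hcard⟩ := hdec
  obtain ⟨o⟩ := hG.nonempty
  obtain ⟨r⟩ := hT.connected.nonempty
  obtain ⟨par, hpr, hdep, hadj⟩ := tree_rooted T hT r
  have hroot : ∀ s, ∃ n, par^[n] s = r := by
    intro s
    induction h : T.dist s r generalizing s with
    | zero =>
      by_cases hs : s = r
      · exact ⟨0, hs⟩
      · have := hdep s hs; omega
    | succ m ih =>
      have hs : s ≠ r := by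
        rintro rfl
        simp at h
      obtain ⟨n, hn⟩ := ih (par s) (by have := hdep s hs; omega)
      exact ⟨n + 1, hn⟩
  have key : ∀ (v : V) (l s s' : ι), (∃ n, par^[n] s = l) → (¬ ∃ n, par^[n] s' = l) →
      v ∈ B s → v ∈ B s' → v ∈ B l ∧ v ∈ B (par l) := by
    intro v l s s' hs hs' hv hv'
    obtain ⟨p⟩ := (hconn v).preconnected ⟨s, hv⟩ ⟨s', hv'⟩
    exact tree_key hadj l p hs hs'
  let A : ι → Finset V := fun t => if t = r then {o} else insert o (B t ∩ B (par t))
  have hoA : ∀ t, o ∈ A t := fun t => by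
    by_cases h : t = r <;> simp [A, h]
  have hA : ∀ t, A t ⊆ insert o (B t ∩ B (par t)) := fun t => by
    by_cases h : t = r <;> simp [A, h]
  have hA' : ∀ (v : V) (l s' : ι), (¬ ∃ n, par^[n] s' = l) → v ∈ B l ∧ v ∈ B (par l) →
      v ∈ A l := by
    intro v l s' hs' hv
    have hl : l ≠ r := fun h => hs' (h ▸ hroot s')
    simp [A, hl, hv.1, hv.2]
  have hcB : ∀ t, (insert o (B t)).card ≤ k + 1 := fun t =>
    (Finset.card_insert_le _ _).trans (Nat.succ_le_succ (hcard t))
  have hAB : ∀ t, A t ⊆ insert o (B t) := fun t =>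
    (hA t).trans (Finset.insert_subset_insert _ Finset.inter_subset_left)
  have hAP : ∀ t, A t ⊆ insert o (B (par t)) := fun t =>
    (hA t).trans (Finset.insert_subset_insert _ Finset.inter_subset_right)
  choose bag hbag using fun t => tree_enum k o (insert o (B t)) (Finset.mem_insert_self _ _) (hcB t)
  choose adh hadh using fun t =>
    tree_enum k o (A t) (hoA t) ((Finset.card_le_card (hAB t)).trans (hcB t))
  have hsep : ∀ (l : ι) (a : V) (s' : ι), (¬ ∃ n, par^[n] s' = l) → a ∈ B s' →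
      ∀ (z : V) (p : G.Walk z a) (s : ι), (∃ n, par^[n] s = l) → z ∈ B s →
        ∃ u ∈ A l, wdist G ℓ z u + wdist G ℓ u a ≤ (p.edges.map ℓ).sum := by
    intro l a s' hs' ha z p
    have hout : ∀ (z : V) (p : G.Walk z a) (s t : ι), (∃ n, par^[n] s = l) → z ∈ B s →
        (¬ ∃ n, par^[n] t = l) → z ∈ B t →
        ∃ u ∈ A l, wdist G ℓ z u + wdist G ℓ u a ≤ (p.edges.map ℓ).sum := by
      intro z p s t hs hz ht hzt
      refine ⟨z, hA' z l t ht (key z l s t hs ht hz hzt), ?_⟩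
      rw [wdist_self hG hℓ, zero_add]
      exact wdist_le_walk hℓ p
    induction p with
    | nil => exact fun s hs hz => hout _ _ s s' hs hz hs' ha
    | @cons z z' a h q ih =>
      intro s hs hz
      obtain ⟨t, hzt, hz't⟩ := hedge z z' h
      by_cases ht : ∃ n, par^[n] t = l
      · obtain ⟨u, hu, hle⟩ := ih ha hout t ht hz't
        refine ⟨u, hu, ?_⟩
        have h1 := wdist_triangle hG hℓ z z' u
        have h2 := wdist_edge_le hℓ h
        simp only [SimpleGraph.Walk.edges_cons, List.map_cons, List.sum_cons]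
        linarith
      · exact hout _ _ s t hs hz ht hzt
  refine ⟨ι, hι, ⟨{
    root := r, par := par, dep := fun t => T.dist t r, o := o, bag := bag, adh := adh
    par_root := hpr, dep_root := by simp, dep_par := hdep
    adh_root := fun c => ?_, o_mem := fun t => ?_, adh_bag := fun t => ?_, adh_par := fun t => ?_
    cover := fun v => ?_, run := fun t s hs v hv => ?_, sep := fun l s s' hs hs' z hz a ha => ?_
    lip := fun ρ C hC hρ h => ?_ }⟩⟩
  · have h : adh r c ∈ Set.range (adh r) := ⟨c, rfl⟩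
    rw [hadh] at h
    simpa [A] using h
  · rw [hadh]; exact hoA t
  · rw [hadh, hbag]; exact hAB t
  · rw [hadh, hbag]; exact hAP t
  · obtain ⟨t, ht⟩ := hcov v
    exact ⟨t, by rw [hbag]; exact Finset.mem_insert_of_mem ht⟩
  · rw [hbag, hbag] at hv
    rw [hadh]
    obtain ⟨h1, h2⟩ := hv
    rcases Finset.mem_insert.1 h1 with rfl | h1
    · exact hoA t
    rcases Finset.mem_insert.1 h2 with rfl | h2
    · exact hoA t
    exact hA' v t s hs (key v t t s ⟨0, rfl⟩ hs h1 h2)
  · rw [hbag] at hz ha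
    rw [hadh]
    rcases Finset.mem_insert.1 hz with rfl | hz
    · exact ⟨z, hoA l, by rw [wdist_self hG hℓ, zero_add]⟩
    rcases Finset.mem_insert.1 ha with rfl | ha
    · exact ⟨a, hoA l, by rw [wdist_self hG hℓ, add_zero]⟩
    obtain ⟨u, hu, hmin⟩ := Finset.exists_min_image (A l)
      (fun u => wdist G ℓ z u + wdist G ℓ u a) ⟨o, hoA l⟩
    refine ⟨u, hu, le_antisymm (wdist_triangle hG hℓ z u a) (le_wdist hG fun p => ?_)⟩
    obtain ⟨u', hu', hle⟩ := hsep l a s' hs' ha z p s hs hz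
    exact (hmin u' hu').trans hle
  · refine le_mul_wdist hG ρ C hC hρ.self hρ.tri fun u v huv => ?_
    obtain ⟨t, hu, hv⟩ := hedge u v huv
    refine (h t u ?_ v ?_).trans (mul_le_mul_of_nonneg_left (wdist_edge_le hℓ huv) hC)
    · rw [hbag]; exact Finset.mem_insert_of_mem hu
    · rw [hbag]; exact Finset.mem_insert_of_mem hv

end Crest.Agent.N206.TW
end

-- ▼ part N206/TW/Final
section

/-!
# Row 206, S0318: from `MainStmt` to the `L¹` embedding (helper20)
-/

set_option autoImplicit false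

namespace Crest.Agent.N206.TW

open MeasureTheory Crest.GeometryTopology.GraphMetric Crest.Agent.R206.Iface534

theorem ex_eq_cutw {V : Type} [Fintype V] [DecidableEq V] (E : ((V → Bool) → ℝ) →ₗ[ℝ] ℝ)
    (hE : IsEx E) (Z : ℝ) (hZ : 0 ≤ Z) : ∃ w : Finset V → ℝ, (∀ S, 0 ≤ w S) ∧
      ∀ x y, cutw w x y = Z * E (fun σ => if σ x = σ y then 0 else 1) := by
  let e : Finset V ≃ (V → Bool) :=
    ⟨fun S v => decide (v ∈ S), fun σ => Finset.univ.filter fun v => σ v = true,
      fun S => by ext v; simp, fun σ => by funext v; simp⟩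
  refine ⟨fun S => Z * E (Pi.single (e S) 1), fun S => mul_nonneg hZ (hE.pos _ fun ω => ?_),
    fun x y => ?_⟩
  · rw [Pi.single_apply]; split_ifs <;> norm_num
  · have h1 : (fun σ : V → Bool => if σ x = σ y then (0 : ℝ) else 1)
        = ∑ S : Finset V, (if (x ∈ S ↔ y ∈ S) then (0 : ℝ) else 1) •
          (Pi.single (e S) 1 : (V → Bool) → ℝ) := by
      funext σ
      obtain ⟨S, rfl⟩ := e.surjective σ
      rw [Finset.sum_apply, Finset.sum_eq_single S (fun S' _ hS' => by
        rw [Pi.smul_apply, Pi.single_eq_of_ne (fun h => hS' (e.injective h).symm), smul_zero])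
        (by simp)]
      simp [e]
    rw [h1, map_sum, Finset.mul_sum, cutw]
    refine Finset.sum_congr rfl fun S _ => ?_
    rw [map_smul, smul_eq_mul]; ring

theorem s0318_of_main (h : MainStmt) :
    ∀ k : ℕ, 2 ≤ k → ∃ C : ℝ, ∀ (V : Type) [Fintype V] (G : SimpleGraph V), G.Connected →
      HasTreeDecompWithBags G k →
      ∀ ℓ : Sym2 V → ℝ, (∀ e ∈ G.edgeSet, 0 < ℓ e) →
        ∃ (Ω : Type) (_ : MeasurableSpace Ω) (μ : Measure Ω) (f : V → Lp ℝ 1 μ),
          ∀ x y : V, wdist G ℓ x y ≤ ‖f x - f y‖ ∧ ‖f x - f y‖ ≤ C * wdist G ℓ x y := by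
  classical
  intro k _
  obtain ⟨C, -, hC⟩ := h k
  refine ⟨C, fun V _ G hG hdec ℓ hℓ => ?_⟩
  obtain ⟨ι, _, ⟨T⟩⟩ := tree k V G hG hdec ℓ hℓ
  obtain ⟨E, Z, hE, hZ, hd⟩ := hC V ι (wdist G ℓ)
    ⟨wdist_self hG hℓ, wdist_comm hG hℓ, wdist_triangle hG hℓ⟩ T
  obtain ⟨w, hw, hcut⟩ := ex_eq_cutw E hE Z hZ
  obtain ⟨Ω, m, μ, f, hf⟩ := exists_Lp_of_cuts w hw
  refine ⟨Ω, m, μ, f, fun x y => ?_⟩
  rw [hf, hcut]
  exact hd x y

end Crest.Agent.N206.TW
end

-- ▼ part N206/TW/Glue
section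

/-!
# Row 206, S0318: Markov gluing of consistent laws along a rooted tree decomposition (helper4)
-/

set_option autoImplicit false

namespace Crest.Agent.N206.TW

open Classical

namespace Glue

variable {Ω : Type}

theorem ex_mono {E : (Ω → ℝ) →ₗ[ℝ] ℝ} (h : IsEx E) {f g : Ω → ℝ} (hfg : ∀ ω, f ω ≤ g ω) :
    E f ≤ E g := by
  have h1 := h.pos (g - f) (fun ω => by simpa using hfg ω)
  rw [map_sub] at h1
  linarith


theorem ex_null [Fintype Ω] {E : (Ω → ℝ) →ₗ[ℝ] ℝ} (h : IsEx E) (χ f : Ω → ℝ)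
    (hχ : ∀ ω, 0 ≤ χ ω) (h0 : E χ = 0) : E (fun ω => χ ω * f ω) = 0 := by
  set M : ℝ := ∑ ω, |f ω| with hM
  have hb : ∀ ω, |f ω| ≤ M := fun ω =>
    Finset.single_le_sum (f := fun ω => |f ω|) (fun _ _ => abs_nonneg _) (Finset.mem_univ ω)
  have h1 : E (fun ω => χ ω * f ω) ≤ E (M • χ) := ex_mono h (fun ω => by
    have := (abs_le.1 (hb ω)).2
    simp only [Pi.smul_apply, smul_eq_mul]
    nlinarith [hχ ω])
  have h2 : E ((-M) • χ) ≤ E (fun ω => χ ω * f ω) := ex_mono h (fun ω => by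
    have := (abs_le.1 (hb ω)).1
    simp only [Pi.smul_apply, smul_eq_mul]
    nlinarith [hχ ω])
  rw [map_smul, h0] at h1 h2
  simp at h1 h2
  linarith

variable {V : Type}

/-- the indicator of agreeing with `s` on `A` -/
noncomputable def ind (A : Set V) (s τ : V → Bool) : ℝ := if ∀ v ∈ A, τ v = s v then 1 else 0

/-- the restriction to `A`, extended by `false` -/
noncomputable def res (A : Set V) (s : V → Bool) : V → Bool := fun v => if v ∈ A then s v else false

/-- multiplication by a function, as a linear map -/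
noncomputable def mulL (χ : Ω → ℝ) : (Ω → ℝ) →ₗ[ℝ] (Ω → ℝ) where
  toFun f := fun ω => χ ω * f ω
  map_add' f g := by funext ω; simp [mul_add]
  map_smul' c f := by funext ω; simp; ring

theorem exists_cond [Fintype V] (ν : ((V → Bool) → ℝ) →ₗ[ℝ] ℝ) (hν : IsEx ν) (A : Set V) :
    ∃ μ : (V → Bool) → ((V → Bool) → ℝ) →ₗ[ℝ] ℝ, (∀ s, IsEx (μ s)) ∧
      (∀ s h₁ h₂, (∀ τ, (∀ v ∈ A, τ v = s v) → h₁ τ = h₂ τ) → μ s h₁ = μ s h₂) ∧
      (∀ s s', (∀ v ∈ A, s v = s' v) → μ s = μ s') ∧ ∀ f, ν (fun s => μ s f) = ν f := by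
  have ind0 : ∀ s τ, 0 ≤ ind A s τ := fun s τ => by unfold ind; split_ifs <;> norm_num
  let μ : (V → Bool) → ((V → Bool) → ℝ) →ₗ[ℝ] ℝ := fun s =>
    if ν (ind A s) = 0 then LinearMap.proj (res A s)
    else (ν (ind A s))⁻¹ • (ν ∘ₗ mulL (ind A s))
  have hμ0 : ∀ s f, ν (ind A s) = 0 → μ s f = f (res A s) := fun s f h => by
    simp [μ, h]
  have hμ1 : ∀ s f, ν (ind A s) ≠ 0 →
      μ s f = (ν (ind A s))⁻¹ * ν (fun τ => ind A s τ * f τ) := fun s f h => by
    simp only [μ, h, if_false]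
    rfl
  have hcongr : ∀ s s', (∀ v ∈ A, s v = s' v) → μ s = μ s' := by
    intro s s' h
    have h1 : ind A s = ind A s' := by
      funext τ
      unfold ind
      have : (∀ v ∈ A, τ v = s v) ↔ (∀ v ∈ A, τ v = s' v) :=
        ⟨fun H v hv => (H v hv).trans (h v hv), fun H v hv => (H v hv).trans (h v hv).symm⟩
      by_cases H : ∀ v ∈ A, τ v = s v
      · rw [if_pos H, if_pos (this.1 H)]
      · rw [if_neg H, if_neg (fun H' => H (this.2 H'))]
    have h2 : res A s = res A s' := by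
      funext v
      unfold res
      split_ifs with hv
      · exact h v hv
      · rfl
    simp only [μ, h1, h2]
  refine ⟨μ, fun s => ⟨fun f hf => ?_, ?_⟩, ?_, hcongr, ?_⟩
  · by_cases h : ν (ind A s) = 0
    · rw [hμ0 s f h]; exact hf _
    · rw [hμ1 s f h]
      exact mul_nonneg (inv_nonneg.2 (hν.pos _ (ind0 s)))
        (hν.pos _ (fun τ => mul_nonneg (ind0 s τ) (hf τ)))
  · by_cases h : ν (ind A s) = 0
    · rw [hμ0 s _ h]
    · rw [hμ1 s _ h]
      simp only [mul_one]
      exact inv_mul_cancel₀ h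
  · intro s h₁ h₂ hh
    by_cases h : ν (ind A s) = 0
    · rw [hμ0 s _ h, hμ0 s _ h]
      exact hh _ (fun v hv => by simp [res, hv])
    · rw [hμ1 s _ h, hμ1 s _ h]
      congr 2
      funext τ
      unfold ind
      split_ifs with hτ
      · rw [hh τ hτ]
      · simp
  · intro f
    let P : Finset (V → Bool) := Finset.univ.filter (fun a => res A a = a)
    have hsum : ∀ (F : (V → Bool) → ℝ), F = ∑ a ∈ P, fun τ => ind A a τ * F τ := by
      intro F
      funext τ
      rw [Finset.sum_apply, Finset.sum_eq_single (res A τ)]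
      · have : ind A (res A τ) τ = 1 := by
          unfold ind
          rw [if_pos]
          intro v hv
          simp [res, hv]
        rw [this, one_mul]
      · intro a ha hne
        have ha' : res A a = a := (Finset.mem_filter.1 ha).2
        have : ind A a τ = 0 := by
          unfold ind
          rw [if_neg]
          intro H
          apply hne
          rw [← ha']
          funext v
          unfold res
          split_ifs with hv
          · exact (H v hv).symm
          · rfl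
        rw [this, zero_mul]
      · intro hn
        exfalso
        apply hn
        refine Finset.mem_filter.2 ⟨Finset.mem_univ _, ?_⟩
        funext v
        unfold res
        split_ifs <;> rfl
    rw [hsum (fun s => μ s f), map_sum]
    conv_rhs => rw [hsum f, map_sum]
    refine Finset.sum_congr rfl (fun a _ => ?_)
    have h1 : (fun τ => ind A a τ * μ τ f) = (μ a f) • ind A a := by
      funext τ
      simp only [Pi.smul_apply, smul_eq_mul]
      unfold ind
      split_ifs with hτ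
      · rw [hcongr τ a hτ]; ring
      · simp
    rw [h1, map_smul, smul_eq_mul]
    by_cases h : ν (ind A a) = 0
    · rw [h, mul_zero, ex_null hν _ f (ind0 a) h]
    · rw [hμ1 a f h]
      field_simp

/-- The resampling kernel of a bag `B` given its adhesion `A`. -/
theorem exists_kernel [Fintype V] (ν : ((V → Bool) → ℝ) →ₗ[ℝ] ℝ) (hν : IsEx ν) (A B : Set V) :
    ∃ K : ((V → Bool) → ℝ) →ₗ[ℝ] ((V → Bool) → ℝ),
      (∀ f, (∀ σ, 0 ≤ f σ) → ∀ σ, 0 ≤ K f σ) ∧ (K (fun _ => 1) = fun _ => 1) ∧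
      (∀ (U : Set V) f g, U ∩ B ⊆ A → DependsOn g U →
        K (fun σ => f σ * g σ) = fun σ => K f σ * g σ) ∧
      (∀ (U : Set V) f, DependsOn f (U ∪ B) → DependsOn (K f) (U ∪ A)) ∧
      (∀ f, DependsOn f B → ν (K f) = ν f) := by
  obtain ⟨μ, hμ, hsupp, hcongr, hdis⟩ := exists_cond ν hν A
  let mix : (V → Bool) → (V → Bool) → V → Bool := fun τ s v => if v ∈ B then τ v else s v
  let K : ((V → Bool) → ℝ) →ₗ[ℝ] ((V → Bool) → ℝ) :=
    { toFun := fun f s => μ s (fun τ => f (mix τ s))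
      map_add' := fun f g => by
        funext s
        simp only [Pi.add_apply]
        rw [← map_add]; rfl
      map_smul' := fun c f => by
        funext s
        simp only [Pi.smul_apply, RingHom.id_apply]
        rw [← map_smul]; rfl }
  have hK : ∀ f s, K f s = μ s (fun τ => f (mix τ s)) := fun _ _ => rfl
  refine ⟨K, fun f hf σ => ?_, ?_, ?_, ?_, ?_⟩
  · rw [hK]; exact (hμ σ).pos _ (fun τ => hf _)
  · funext s
    rw [hK]; exact (hμ s).one
  · intro U f g hU hg
    funext s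
    rw [hK, hK]
    have h1 : μ s (fun τ => f (mix τ s) * g (mix τ s)) = μ s (g s • fun τ => f (mix τ s)) := by
      refine hsupp s _ _ (fun τ hτ => ?_)
      have : g (mix τ s) = g s := hg (fun v hv => by
        simp only [mix]
        split_ifs with hB
        · exact hτ v (hU ⟨hv, hB⟩)
        · rfl)
      simp only [Pi.smul_apply, smul_eq_mul, this]; ring
    rw [h1, map_smul, smul_eq_mul, mul_comm]
  · intro U f hf s s' hs
    rw [hK, hK, hcongr s s' (fun v hv => hs v (Or.inr hv))]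
    congr 1
    funext τ
    refine hf (fun v hv => ?_)
    simp only [mix]
    split_ifs with hB
    · rfl
    · rcases hv with hv | hv
      · exact hs v (Or.inl hv)
      · exact absurd hv hB
  · intro f hf
    rw [← hdis f]
    congr 1
    funext s
    rw [hK]
    congr 1
    funext τ
    exact hf (fun v hv => by simp [mix, hv])

variable {ι : Type} {k : ℕ} {d : V → V → ℝ} (T : RTD V k d ι)

theorem sub_dep {t s : ι} (h : T.Sub t s) : s = t ∨ T.dep t < T.dep s := by
  obtain ⟨n, hn⟩ := h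
  induction n generalizing s with
  | zero => exact Or.inl hn
  | succ n ih =>
    rw [Function.iterate_succ_apply] at hn
    by_cases hs : s = T.root
    · have : T.par s = s := by rw [hs, T.par_root]
      rw [this] at hn
      exact ih hn
    · have h1 := T.dep_par s hs
      rcases ih hn with h2 | h2
      · right; rw [← h2]; omega
      · right; omega

theorem sub_of_par {t s : ι} (h : T.Sub t (T.par s)) : T.Sub t s := by
  obtain ⟨n, hn⟩ := h
  exact ⟨n + 1, by rw [Function.iterate_succ_apply]; exact hn⟩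

theorem sub_par {t s : ι} (h : T.Sub t s) (hne : s ≠ t) : T.Sub t (T.par s) := by
  obtain ⟨n, hn⟩ := h
  cases n with
  | zero => exact absurd hn hne
  | succ n => exact ⟨n, by rw [Function.iterate_succ_apply] at hn; exact hn⟩

/-- vertices of the bags in `S` -/
def US (S : Finset ι) : Set V := {v | ∃ s ∈ S, v ∈ T.B s}

/-- vertices of the bags in `S` below `t` -/
def InS (S : Finset ι) (t : ι) : Set V := {v | ∃ s ∈ S, T.Sub t s ∧ v ∈ T.B s}

/-- vertices of the bags in `S` not below `t` -/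
def OutS (S : Finset ι) (t : ι) : Set V := {v | ∃ s ∈ S, ¬ T.Sub t s ∧ v ∈ T.B s}

theorem dep_mul {U : Set V} {f g : (V → Bool) → ℝ} (hf : DependsOn f U) (hg : DependsOn g U) :
    DependsOn (fun σ => f σ * g σ) U := fun _ _ h => by
  simp only [hf h, hg h]

theorem glue_aux [Fintype V] (ν : ι → ((V → Bool) → ℝ) →ₗ[ℝ] ℝ) (hν : ∀ t, IsEx (ν t))
    (hc : ∀ t f, DependsOn f (T.A t) → ν t f = ν (T.par t) f) (S : Finset ι) :
    (∀ s ∈ S, T.par s ∈ S) →
    ∃ E : ((V → Bool) → ℝ) →ₗ[ℝ] ℝ, IsEx E ∧ (∀ t ∈ S, ∀ f, DependsOn f (T.B t) → E f = ν t f) ∧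
      ∀ t, t ≠ T.root → ∀ f, DependsOn f (InS T S t) → (∀ σ, 0 ≤ f σ ∧ f σ ≤ 1) →
        ∃ q : (V → Bool) → ℝ, DependsOn q (T.A t ∩ US T S) ∧ (∀ σ, 0 ≤ q σ ∧ q σ ≤ 1) ∧
          ∀ g, DependsOn g (OutS T S t) → E (fun σ => f σ * g σ) = E (fun σ => q σ * g σ) := by
  induction S using Finset.induction_on_max_value T.dep with
  | empty =>
    intro _
    refine ⟨ν T.root, hν _, fun t ht => absurd ht (Finset.notMem_empty t), ?_⟩
    intro t _ f hf h01
    refine ⟨f, hf.mono ?_, h01, fun g _ => rfl⟩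
    rintro v ⟨s, hs, _⟩
    exact absurd hs (Finset.notMem_empty s)
  | insert l S hl hmax ih =>
    intro hcl
    have hnsub : ∀ s ∈ S, ¬ T.Sub l s := by
      intro s hs h
      rcases sub_dep T h with h1 | h1
      · exact hl (h1 ▸ hs)
      · exact absurd (hmax s hs) (by omega)
    have hclS : ∀ s ∈ S, T.par s ∈ S := by
      intro s hs
      rcases Finset.mem_insert.1 (hcl s (Finset.mem_insert_of_mem hs)) with h | h
      · exact absurd ⟨1, h⟩ (hnsub s hs)
      · exact h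
    by_cases hroot : l = T.root
    · have hS : ∀ s, s ∉ S := by
        intro s hs
        have h1 := hmax s hs
        rw [hroot, T.dep_root] at h1
        by_cases h2 : s = T.root
        · exact hl (by rw [hroot, ← h2]; exact hs)
        · have := T.dep_par s h2
          omega
      refine ⟨ν T.root, hν _, fun t ht f _ => ?_, ?_⟩
      · rcases Finset.mem_insert.1 ht with h | h
        · rw [h, hroot]
        · exact absurd h (hS t)
      · intro t ht f hf h01
        refine ⟨f, hf.mono ?_, h01, fun g _ => rfl⟩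
        rintro v ⟨s, hs, hsub, _⟩
        rcases Finset.mem_insert.1 hs with h | h
        · exfalso
          rcases sub_dep T hsub with h1 | h1
          · exact ht (by rw [← h1, h, hroot])
          · rw [h, hroot, T.dep_root] at h1
            omega
        · exact absurd h (hS s)
    obtain ⟨E, hE, hG1, hG2⟩ := ih hclS
    have hpar : T.par l ∈ S := by
      rcases Finset.mem_insert.1 (hcl l (Finset.mem_insert_self l S)) with h | h
      · have := T.dep_par l hroot
        rw [h] at this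
        omega
      · exact h
    have hUB : US T S ∩ T.B l ⊆ T.A l := by
      rintro v ⟨⟨s, hs, hv⟩, hvl⟩
      exact T.run l s (hnsub s hs) ⟨hvl, hv⟩
    have hAp : T.A l ⊆ T.B (T.par l) := T.adh_par l
    have hAU : T.A l ⊆ US T S := fun v hv => ⟨T.par l, hpar, hAp hv⟩
    obtain ⟨K, hKpos, hK1, hKmul, hKdep, hKν⟩ := exists_kernel (ν l) (hν l) (T.A l) (T.B l)
    have hKid : ∀ g, DependsOn g (US T S) → K g = g := by
      intro g hg
      have h1 := hKmul (US T S) (fun _ => 1) g hUB hg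
      simp only [one_mul, hK1] at h1
      exact h1
    have hK01 : ∀ f : (V → Bool) → ℝ, (∀ σ, 0 ≤ f σ ∧ f σ ≤ 1) → ∀ σ, 0 ≤ K f σ ∧ K f σ ≤ 1 := by
      intro f hf σ
      refine ⟨hKpos f (fun σ => (hf σ).1) σ, ?_⟩
      have h1 := hKpos ((fun _ => 1) - f) (fun σ => by simpa using (hf σ).2) σ
      rw [map_sub, hK1] at h1
      simpa using h1
    have hInU : ∀ t, InS T S t ⊆ US T S := fun t v ⟨s, hs, _, hv⟩ => ⟨s, hs, hv⟩
    have hOutU : ∀ t, OutS T S t ⊆ US T S := fun t v ⟨s, hs, _, hv⟩ => ⟨s, hs, hv⟩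
    have hUU : US T S ⊆ US T (insert l S) := fun v ⟨s, hs, hv⟩ =>
      ⟨s, Finset.mem_insert_of_mem hs, hv⟩
    refine ⟨E ∘ₗ K, ⟨fun f hf => hE.pos _ (hKpos f hf), ?_⟩, ?_, ?_⟩
    · rw [LinearMap.comp_apply, hK1]; exact hE.one
    · intro t ht f hf
      rw [LinearMap.comp_apply]
      rcases Finset.mem_insert.1 ht with h | h
      · subst h
        have h1 : DependsOn (K f) (T.A t) := by
          have := hKdep ∅ f (by rw [Set.empty_union]; exact hf)
          rwa [Set.empty_union] at this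
        rw [hG1 _ hpar _ (h1.mono hAp), ← hc t _ h1, hKν f hf]
      · rw [hKid f (hf.mono (fun v hv => ⟨t, h, hv⟩))]
        exact hG1 t h f hf
    · intro t ht f hf h01
      by_cases hsub : T.Sub t l
      · have hOut : OutS T (insert l S) t ⊆ OutS T S t := by
          rintro v ⟨s, hs, hn, hv⟩
          rcases Finset.mem_insert.1 hs with h | h
          · exact absurd (h ▸ hsub) hn
          · exact ⟨s, h, hn, hv⟩
        by_cases hlt : l = t
        · subst hlt
          have hfB : DependsOn f (T.B l) := hf.mono (by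
            rintro v ⟨s, hs, hs2, hv⟩
            rcases Finset.mem_insert.1 hs with h | h
            · exact h ▸ hv
            · exact absurd hs2 (hnsub s h))
          have h1 : DependsOn (K f) (T.A l) := by
            have := hKdep ∅ f (by rw [Set.empty_union]; exact hfB)
            rwa [Set.empty_union] at this
          refine ⟨K f, h1.mono (fun v hv => ⟨hv, hUU (hAU hv)⟩), hK01 f h01, fun g hg => ?_⟩
          have hgU : DependsOn g (US T S) := hg.mono (hOut.trans (hOutU l))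
          rw [LinearMap.comp_apply, LinearMap.comp_apply, hKmul _ f g hUB hgU,
            hKid _ (dep_mul (h1.mono hAU) hgU)]
        · have hsp : T.Sub t (T.par l) := sub_par T hsub hlt
          have h1 : DependsOn (K f) (InS T S t) := by
            refine (hKdep (InS T S t) f (hf.mono ?_)).mono ?_
            · rintro v ⟨s, hs, hs2, hv⟩
              rcases Finset.mem_insert.1 hs with h | h
              · exact Or.inr (h ▸ hv)
              · exact Or.inl ⟨s, h, hs2, hv⟩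
            · rintro v (hv | hv)
              · exact hv
              · exact ⟨T.par l, hpar, hsp, hAp hv⟩
          obtain ⟨q, hq, hq01, hqg⟩ := hG2 t ht (K f) h1 (hK01 f h01)
          refine ⟨q, hq.mono (fun v hv => ⟨hv.1, hUU hv.2⟩), hq01, fun g hg => ?_⟩
          have hgO : DependsOn g (OutS T S t) := hg.mono hOut
          have hgU : DependsOn g (US T S) := hgO.mono (hOutU t)
          rw [LinearMap.comp_apply, LinearMap.comp_apply, hKmul _ f g hUB hgU, hqg g hgO,
            hKid _ (dep_mul (hq.mono (fun v hv => hv.2)) hgU)]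
      · have hfI : DependsOn f (InS T S t) := hf.mono (by
          rintro v ⟨s, hs, hs2, hv⟩
          rcases Finset.mem_insert.1 hs with h | h
          · exact absurd (h ▸ hs2) hsub
          · exact ⟨s, h, hs2, hv⟩)
        obtain ⟨q, hq, hq01, hqg⟩ := hG2 t ht f hfI h01
        refine ⟨q, hq.mono (fun v hv => ⟨hv.1, hUU hv.2⟩), hq01, fun g hg => ?_⟩
        have h1 : DependsOn (K g) (OutS T S t) := by
          refine (hKdep (OutS T S t) g (hg.mono ?_)).mono ?_
          · rintro v ⟨s, hs, hs2, hv⟩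
            rcases Finset.mem_insert.1 hs with h | h
            · exact Or.inr (h ▸ hv)
            · exact Or.inl ⟨s, h, hs2, hv⟩
          · rintro v (hv | hv)
            · exact hv
            · exact ⟨T.par l, hpar, fun h => hsub (sub_of_par T h), hAp hv⟩
        have e1 : (fun σ => f σ * g σ) = fun σ => g σ * f σ := by funext σ; ring
        have e2 : (fun σ => q σ * g σ) = fun σ => g σ * q σ := by funext σ; ring
        rw [LinearMap.comp_apply, LinearMap.comp_apply, e1, e2,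
          hKmul _ g f hUB (hfI.mono (hInU t)), hKmul _ g q hUB (hq.mono (fun v hv => hv.2))]
        have h2 := hqg (K g) h1
        have e3 : (fun σ => K g σ * f σ) = fun σ => f σ * K g σ := by funext σ; ring
        have e4 : (fun σ => K g σ * q σ) = fun σ => q σ * K g σ := by funext σ; ring
        rw [e3, e4, h2]

end Glue

/-- (Glue) Markov gluing. -/
theorem glue : GlueStmt := by
  intro V ι _ _ k d T ν hν hc
  obtain ⟨E, hE, hG1, hG2⟩ := Glue.glue_aux T ν hν hc Finset.univ (fun _ _ => Finset.mem_univ _)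
  refine ⟨E, hE, fun t f hf => hG1 t (Finset.mem_univ t) f hf, fun t ht f hf h01 => ?_⟩
  obtain ⟨q, hq, hq01, hqg⟩ := hG2 t ht f
    (hf.mono (by rintro v ⟨s, hs, hv⟩; exact ⟨s, Finset.mem_univ s, hs, hv⟩)) h01
  exact ⟨q, hq.mono (fun v hv => hv.1), hq01, fun g hg =>
    hqg g (hg.mono (by rintro v ⟨s, hs, hv⟩; exact ⟨s, Finset.mem_univ s, hs, hv⟩))⟩

end Crest.Agent.N206.TW
end

-- ▼ part N206/TW/Markov
section

/-!
# Row 206, S0318: thresholds for a martingale with boundedly many values (helper64)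
-/

set_option autoImplicit false

namespace Crest.Agent.N206.TW

open Finset

namespace Markov

theorem ex_mono {Ω : Type} {E : (Ω → ℝ) →ₗ[ℝ] ℝ} (h : IsEx E) {f g : Ω → ℝ}
    (hfg : ∀ ω, f ω ≤ g ω) : E f ≤ E g := by
  have h1 := h.pos (g - f) fun ω => by simpa using hfg ω
  rw [map_sub] at h1
  linarith

/-- The radius of level `i`. -/
noncomputable def R (s i : ℕ) : ℝ := 1 / 4 * (1 / (2 * ((s : ℝ) + 1))) ^ i

theorem R_pos (s i : ℕ) : 0 < R s i := by unfold R; positivity

theorem R_succ (s i : ℕ) : 2 * R s (i + 1) = R s i / (s + 1) := by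
  unfold R
  rw [pow_succ]
  field_simp

theorem R_anti (s : ℕ) {i j : ℕ} (h : i ≤ j) : R s j ≤ R s i := by
  unfold R
  refine mul_le_mul_of_nonneg_left (pow_le_pow_of_le_one (by positivity) ?_ h) (by norm_num)
  rw [div_le_one (by positivity)]
  have : (0 : ℝ) ≤ s := by positivity
  linarith

/-- Pigeonhole: a child interval whose double misses `Q`. -/
theorem next {s : ℕ} (Q : Finset ℝ) (hQ : Q.card ≤ s) (i : ℕ) (x : ℝ) :
    ∃ y, |y - x| + 2 * R s (i + 1) ≤ R s i ∧ ∀ z ∈ Q, 2 * R s (i + 1) ≤ |z - y| := by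
  set g := 2 * R s (i + 1) with hg
  have hg0 : 0 < g := by have := R_pos s (i + 1); positivity
  have hRg : R s i = (s + 1) * g := by
    rw [hg, R_succ]; field_simp
  by_contra hcon
  push Not at hcon
  have h1 : ∀ m : Fin (s + 1), ∃ z ∈ Q, |z - (x - R s i + (2 * (m : ℕ) + 1) * g)| < g := by
    intro m
    refine hcon _ ?_
    have hm : ((m : ℕ) : ℝ) ≤ s := by exact_mod_cast Nat.lt_succ_iff.1 m.2
    have hm0 : (0 : ℝ) ≤ (m : ℕ) := by positivity
    have : |x - R s i + (2 * (m : ℕ) + 1) * g - x| ≤ R s i - g := by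
      rw [abs_le, hRg]
      constructor <;> nlinarith
    linarith
  choose z hz hz' using h1
  have hinj : Function.Injective z := by
    intro m m' e
    have a := abs_lt.1 (hz' m)
    have b := abs_lt.1 (hz' m')
    rw [e] at a
    have c1 : ((m : ℕ) : ℝ) < (m' : ℕ) + 1 := by nlinarith [a.1, a.2, b.1, b.2]
    have c2 : ((m' : ℕ) : ℝ) < (m : ℕ) + 1 := by nlinarith [a.1, a.2, b.1, b.2]
    have c3 : (m : ℕ) < (m' : ℕ) + 1 := by exact_mod_cast c1
    have c4 : (m' : ℕ) < (m : ℕ) + 1 := by exact_mod_cast c2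
    exact Fin.ext (by omega)
  have h2 : (univ : Finset (Fin (s + 1))).card ≤ Q.card :=
    card_le_card_of_injOn z (fun m _ => hz m) hinj.injOn
  simp at h2
  omega

/-- Nested intervals: the double of each level lies in the previous level. -/
def Good (s : ℕ) (c : ℕ → ℝ) : Prop :=
  c 0 = 1 / 2 ∧ ∀ i, |c (i + 1) - c i| + 2 * R s (i + 1) ≤ R s i

theorem Good.nest {s : ℕ} {c : ℕ → ℝ} (h : Good s c) {i j : ℕ} (hij : i < j) :
    |c j - c i| + 2 * R s j ≤ R s i := by
  induction j, hij using Nat.le_induction with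
  | base => exact h.2 i
  | succ j _ ih =>
    have h1 := h.2 j
    have h2 := abs_sub_le (c (j + 1)) (c j) (c i)
    have := R_pos s j
    linarith

theorem Good.mem {s : ℕ} {c : ℕ → ℝ} (h : Good s c) (j : ℕ) :
    1 / 4 ≤ c (j + 1) ∧ c (j + 1) ≤ 3 / 4 := by
  have h1 := h.nest (Nat.succ_pos j)
  have h2 := R_pos s (j + 1)
  have h3 : R s 0 = 1 / 4 := by simp [R]
  rw [h.1, h3] at h1
  have h4 := abs_le.1 (show |c (j + 1) - 1 / 2| ≤ 1 / 4 by
    simp only [Nat.succ_eq_add_one] at h1; linarith)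
  constructor <;> linarith [h4.1, h4.2]

theorem extend {s : ℕ} (c : ℕ → ℝ) (r : ℕ) (h0 : c 0 = 1 / 2)
    (hc : ∀ i < r, |c (i + 1) - c i| + 2 * R s (i + 1) ≤ R s i) (Q : Finset ℝ) (hQ : Q.card ≤ s) :
    ∃ c', Good s c' ∧ (∀ i ≤ r, c' i = c i) ∧
      ∀ i, r ≤ i → ∀ z ∈ Q, 2 * R s (i + 1) ≤ |z - c' (i + 1)| := by
  choose nx hnx hnx' using next Q hQ
  let c' : ℕ → ℝ := fun i => Nat.rec (c 0) (fun i y => if i < r then c (i + 1) else nx i y) i
  have e : ∀ i, c' (i + 1) = if i < r then c (i + 1) else nx i (c' i) := fun _ => rfl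
  have e0 : ∀ i ≤ r, c' i = c i := by
    intro i hi
    cases i with
    | zero => rfl
    | succ i => rw [e, if_pos (by omega)]
  refine ⟨c', ⟨h0, fun i => ?_⟩, e0, fun i hi z hz => ?_⟩
  · by_cases hi : i < r
    · rw [e0 _ hi, e0 _ hi.le]; exact hc i hi
    · rw [e, if_neg hi]; exact hnx _ _
  · rw [e, if_neg (by omega)]; exact hnx' _ _ z hz

/-- The bump `((ρ - |x - c|)⁺)²`. -/
noncomputable def kk (ρ c x : ℝ) : ℝ := (max 0 (ρ - |x - c|)) ^ 2

/-- Its derivative. -/
noncomputable def dk (ρ c x : ℝ) : ℝ := -2 * max 0 (ρ - |x - c|) * (if c ≤ x then 1 else -1)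

theorem kk_nonneg (ρ c x : ℝ) : 0 ≤ kk ρ c x := sq_nonneg _

theorem kk_step (ρ c a b : ℝ) : kk ρ c b ≤ kk ρ c a + (b - a) * dk ρ c a + (b - a) ^ 2 := by
  unfold kk dk
  set σ : ℝ := if c ≤ a then 1 else -1 with hσ
  have hσ2 : σ ^ 2 = 1 := by rw [hσ]; split_ifs <;> norm_num
  have h1 : |a - c| + σ * (b - a) ≤ |b - c| := by
    rw [hσ]
    split_ifs with h
    · rw [abs_of_nonneg (sub_nonneg.2 h)]; linarith [le_abs_self (b - c)]
    · rw [abs_of_neg (by linarith)]; linarith [neg_abs_le (b - c)]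
  set t := max 0 (ρ - |a - c|) with ht
  have h2 : max 0 (ρ - |b - c|) ≤ |t - σ * (b - a)| := by
    refine max_le (abs_nonneg _) ?_
    have := le_max_right 0 (ρ - |a - c|)
    linarith [le_abs_self (t - σ * (b - a))]
  have h3 : (max 0 (ρ - |b - c|)) ^ 2 ≤ (t - σ * (b - a)) ^ 2 := by
    rw [← sq_abs (t - σ * (b - a))]
    exact pow_le_pow_left₀ (le_max_left _ _) h2 2
  have h4 : (t - σ * (b - a)) ^ 2 = t ^ 2 + (b - a) * (-2 * t * σ) + σ ^ 2 * (b - a) ^ 2 := by ring
  rw [h4, hσ2] at h3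
  linarith

theorem kk_zero {ρ c x : ℝ} (h : ρ ≤ |x - c|) : kk ρ c x = 0 := by
  unfold kk
  rw [max_eq_left (by linarith)]
  ring

theorem kk_ge {ρ ρ' c x : ℝ} (h0 : 0 ≤ ρ') (hρ : ρ' ≤ ρ) (h : |x - c| < ρ) :
    ρ' ^ 2 ≤ kk (2 * ρ) c x :=
  pow_le_pow_left₀ h0 (le_trans (by linarith) (le_max_right _ _)) 2

section
variable {Ω : Type} {E : (Ω → ℝ) →ₗ[ℝ] ℝ}

/-- The mass of the level `i`. -/
noncomputable def mass (E : (Ω → ℝ) →ₗ[ℝ] ℝ) (s : ℕ) (c : ℕ → ℝ) (p : Ω → ℝ) (i : ℕ) : ℝ :=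
  E fun ω => if |p ω - c i| < R s i then 1 else 0

theorem exists_level (hE : IsEx E) {s : ℕ} {c : ℕ → ℝ} (hc : Good s c) (p : Ω → ℝ)
    (Q : Finset ℝ) (hQ : Q.card ≤ s) (hp : ∀ ω, p ω ∈ Q) :
    ∃ r ≤ s, mass E s c p r ≤ 2 * mass E s c p (r + 1) := by
  by_contra hcon
  push Not at hcon
  have key : ∀ r ≤ s + 1, (Q.filter fun z => |z - c r| < R s r).card + r ≤ s := by
    intro r
    induction r with
    | zero => intro _; exact (card_filter_le _ _).trans hQ
    | succ r ih =>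
      intro hr
      have ih' := ih (by omega)
      have hsub : ∀ z, |z - c (r + 1)| < R s (r + 1) → |z - c r| < R s r := by
        intro z hz
        have h1 := hc.2 r
        have h2 := abs_sub_le z (c (r + 1)) (c r)
        have := R_pos s (r + 1)
        linarith
      have hlt : (Q.filter fun z => |z - c (r + 1)| < R s (r + 1)).card <
          (Q.filter fun z => |z - c r| < R s r).card := by
        refine card_lt_card ⟨fun z hz => ?_, fun hh => ?_⟩
        · rw [mem_filter] at hz ⊢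
          exact ⟨hz.1, hsub z hz.2⟩
        · have h1 := hcon r (by omega)
          have h2 : mass E s c p r ≤ mass E s c p (r + 1) := by
            refine ex_mono hE fun ω => ?_
            by_cases h : |p ω - c r| < R s r
            · have := (mem_filter.1 (hh (mem_filter.2 ⟨hp ω, h⟩))).2
              simp [h, this]
            · rw [if_neg h]; split_ifs <;> norm_num
          have h3 : 0 ≤ mass E s c p (r + 1) := hE.pos _ fun ω => by split_ifs <;> norm_num
          linarith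
      omega
  have := key (s + 1) le_rfl
  omega

/-- The potential. -/
noncomputable def pot (E : (Ω → ℝ) →ₗ[ℝ] ℝ) (s : ℕ) (c : ℕ → ℝ) (p : Ω → ℝ) : ℝ :=
  ∑ i ∈ range (s + 1), E fun ω => kk (2 * R s (i + 1)) (c (i + 1)) (p ω)

theorem pot_nonneg (hE : IsEx E) (s : ℕ) (c : ℕ → ℝ) (p : Ω → ℝ) : 0 ≤ pot E s c p :=
  sum_nonneg fun _ _ => hE.pos _ fun _ => kk_nonneg _ _ _

theorem qv_eq {p p' : Ω → ℝ} (hm : ∀ φ : ℝ → ℝ, E (fun ω => (p' ω - p ω) * φ (p ω)) = 0) :
    E (fun ω => (p' ω - p ω) ^ 2) = E (fun ω => p' ω ^ 2) - E (fun ω => p ω ^ 2) := by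
  have e : (fun ω => (p' ω - p ω) ^ 2) =
      (fun ω => p' ω ^ 2) - (fun ω => p ω ^ 2) - fun ω => (p' ω - p ω) * (2 * p ω) := by
    funext ω; simp only [Pi.sub_apply]; ring
  rw [e, map_sub, map_sub, hm fun x => 2 * x, sub_zero]

theorem pot_step (hE : IsEx E) (s : ℕ) (c : ℕ → ℝ) {p p' : Ω → ℝ}
    (hm : ∀ φ : ℝ → ℝ, E (fun ω => (p' ω - p ω) * φ (p ω)) = 0) :
    pot E s c p' ≤ pot E s c p + (s + 1) * E (fun ω => (p' ω - p ω) ^ 2) := by
  have h : ∀ ρ x : ℝ, E (fun ω => kk ρ x (p' ω)) ≤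
      E (fun ω => kk ρ x (p ω)) + E (fun ω => (p' ω - p ω) ^ 2) := by
    intro ρ x
    have h1 := ex_mono hE (f := fun ω => kk ρ x (p' ω))
      (g := (fun ω => kk ρ x (p ω)) + (fun ω => (p' ω - p ω) * dk ρ x (p ω)) +
        fun ω => (p' ω - p ω) ^ 2) fun ω => kk_step ρ x (p ω) (p' ω)
    rw [map_add, map_add, hm (dk ρ x), add_zero] at h1
    exact h1
  refine (sum_le_sum fun i _ => h _ _).trans (le_of_eq ?_)
  rw [sum_add_distrib, sum_const, card_range, nsmul_eq_mul]
  push_cast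
  rfl

/-- One step of the construction. -/
theorem step (hE : IsEx E) {s : ℕ} {c : ℕ → ℝ} (hc : Good s c) {p p' : Ω → ℝ}
    (hp : ∀ ω, 2 * R s (s + 1) ≤ |p ω - c (s + 1)|)
    (Q : Finset ℝ) (hQ : Q.card ≤ s) (hp' : ∀ ω, p' ω ∈ Q)
    (hm : ∀ φ : ℝ → ℝ, E (fun ω => (p' ω - p ω) * φ (p ω)) = 0) :
    ∃ c', Good s c' ∧ (∀ ω, 2 * R s (s + 1) ≤ |p' ω - c' (s + 1)|) ∧
      R s (s + 1) ^ 2 *
          E (fun ω => if (c (s + 1) < p ω ↔ c' (s + 1) < p' ω) then 0 else 1) +
        2 * pot E s c' p' ≤ 2 * pot E s c p + (2 * s + 3) * E (fun ω => (p' ω - p ω) ^ 2) := by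
  obtain ⟨r, hr, hmass⟩ := exists_level hE hc p' Q hQ hp'
  obtain ⟨c', hc', he, hz⟩ := extend c r hc.1 (fun i _ => hc.2 i) Q hQ
  refine ⟨c', hc', fun ω => hz s hr _ (hp' ω), ?_⟩
  set ρ := R s (s + 1) with hρ
  have hρ0 : 0 < ρ := R_pos _ _
  -- the cost
  have h1 : ρ ^ 2 * E (fun ω => if (c (s + 1) < p ω ↔ c' (s + 1) < p' ω) then 0 else 1) ≤
      E (fun ω => (p' ω - p ω) ^ 2) + ρ ^ 2 * mass E s c p' r := by
    rw [mass, ← smul_eq_mul, ← smul_eq_mul (ρ ^ 2), ← map_smul, ← map_smul, ← map_add]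
    refine ex_mono hE fun ω => ?_
    simp only [Pi.smul_apply, Pi.add_apply, smul_eq_mul]
    have a0 := sq_nonneg (p' ω - p ω)
    have a1 := sq_nonneg ρ
    by_cases hh : (c (s + 1) < p ω ↔ c' (s + 1) < p' ω)
    · rw [if_pos hh]; split_ifs <;> linarith
    rw [if_neg hh]
    by_cases hi : |p' ω - c r| < R s r
    · rw [if_pos hi]; linarith
    rw [if_neg hi]
    have b1 := hc.nest (show r < s + 1 by omega)
    have b2 := hc'.nest (show r < s + 1 by omega)
    rw [he r le_rfl] at b2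
    have b3 := abs_le.1 (show |c (s + 1) - c r| ≤ R s r - 2 * ρ by linarith)
    have b4 := abs_le.1 (show |c' (s + 1) - c r| ≤ R s r - 2 * ρ by linarith)
    have b5 := le_abs'.1 (not_lt.1 hi)
    have b6 := le_abs'.1 (hp ω)
    have b7 : ρ ≤ |p' ω - p ω| := by
      rw [le_abs']
      by_contra hcon
      push Not at hcon
      apply hh
      constructor <;> intro h <;> rcases b5 with b5 | b5 <;> rcases b6 with b6 | b6 <;>
        linarith [hcon.1, hcon.2, b3.1, b3.2, b4.1, b4.2]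
    have b8 : ρ ^ 2 ≤ |p' ω - p ω| ^ 2 := pow_le_pow_left₀ hρ0.le b7 2
    rw [sq_abs] at b8
    linarith
  have h2 : ρ ^ 2 * mass E s c p' (r + 1) ≤
      E fun ω => kk (2 * R s (r + 1)) (c (r + 1)) (p' ω) := by
    rw [mass, ← smul_eq_mul, ← map_smul]
    refine ex_mono hE fun ω => ?_
    simp only [Pi.smul_apply, smul_eq_mul]
    split_ifs with h
    · rw [mul_one]; exact kk_ge hρ0.le (R_anti s (by omega)) h
    · rw [mul_zero]; exact kk_nonneg _ _ _
  have h3 : pot E s c' p' + (E fun ω => kk (2 * R s (r + 1)) (c (r + 1)) (p' ω)) ≤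
      pot E s c p' := by
    unfold pot
    have hr' : r ∈ range (s + 1) := mem_range.2 (by omega)
    rw [← add_sum_erase _ _ hr', ← add_sum_erase _ _ hr']
    have z0 : ∀ i, r ≤ i → (E fun ω => kk (2 * R s (i + 1)) (c' (i + 1)) (p' ω)) = 0 := by
      intro i hi
      have : (fun ω => kk (2 * R s (i + 1)) (c' (i + 1)) (p' ω)) = 0 :=
        funext fun ω => kk_zero (hz i hi _ (hp' ω))
      rw [this, map_zero]
    rw [z0 r le_rfl, zero_add, add_comm]
    refine add_le_add le_rfl (sum_le_sum fun i _ => ?_)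
    by_cases hi : r ≤ i
    · rw [z0 i hi]; exact hE.pos _ fun _ => kk_nonneg _ _ _
    · rw [he (i + 1) (by omega)]
  have h4 := pot_step hE s c hm
  have h5 := mul_le_mul_of_nonneg_left hmass (sq_nonneg ρ)
  nlinarith

end

end Markov

open Markov in
theorem markov : MarkovStmt := by
  intro s
  have hρ0 : 0 < R s (s + 1) := R_pos _ _
  refine ⟨(2 * s + 3) / R s (s + 1) ^ 2, by positivity, ?_⟩
  intro Ω E hE q j₀ n hn hQ hm
  have key : ∃ (th : ℕ → ℝ) (c : ℕ → ℝ), Good s c ∧ th n = c (s + 1) ∧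
      (∀ j, 1 / 4 ≤ th j ∧ th j ≤ 3 / 4) ∧ (∀ ω, 2 * R s (s + 1) ≤ |q n ω - c (s + 1)|) ∧
      R s (s + 1) ^ 2 * ∑ j ∈ Finset.Ico j₀ n,
            E (fun ω => if (th j < q j ω ↔ th (j + 1) < q (j + 1) ω) then 0 else 1) +
          2 * pot E s c (q n) ≤
        (2 * s + 3) * (E (fun ω => q n ω ^ 2) - E (fun ω => q j₀ ω ^ 2)) := by
    induction n, hn using Nat.le_induction with
    | base =>
      obtain ⟨Q, hQ1, hQ2⟩ := hQ j₀
      obtain ⟨c, hc, -, hz⟩ := extend (s := s) (fun _ => 1 / 2) 0 rfl (fun i hi => by omega) Q hQ1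
      refine ⟨fun _ => c (s + 1), c, hc, rfl, fun _ => hc.mem s,
        fun ω => hz s (Nat.zero_le _) _ (hQ2 ω), ?_⟩
      have : pot E s c (q j₀) = 0 := by
        refine sum_eq_zero fun i _ => ?_
        have : (fun ω => kk (2 * R s (i + 1)) (c (i + 1)) (q j₀ ω)) = 0 :=
          funext fun ω => kk_zero (hz i (Nat.zero_le _) _ (hQ2 ω))
        rw [this, map_zero]
      simp [this]
    | succ n hn ih =>
      obtain ⟨th, c, hc, hth, hmem, hfar, hle⟩ := ih fun j h1 h2 => hm j h1 (by omega)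
      obtain ⟨Q, hQ1, hQ2⟩ := hQ (n + 1)
      have hm' := hm n hn (by omega)
      obtain ⟨c', hc', hfar', hle'⟩ := step hE hc hfar Q hQ1 hQ2 hm'
      refine ⟨Function.update th (n + 1) (c' (s + 1)), c', hc', by simp, fun j => ?_, hfar', ?_⟩
      · by_cases hj : j = n + 1
        · subst hj; simpa using hc'.mem s
        · rw [Function.update_of_ne hj]; exact hmem j
      · rw [sum_Ico_succ_top hn]
        have e1 : ∑ j ∈ Finset.Ico j₀ n, E (fun ω =>
            if (Function.update th (n + 1) (c' (s + 1)) j < q j ω ↔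
              Function.update th (n + 1) (c' (s + 1)) (j + 1) < q (j + 1) ω) then 0 else 1) =
            ∑ j ∈ Finset.Ico j₀ n,
              E (fun ω => if (th j < q j ω ↔ th (j + 1) < q (j + 1) ω) then 0 else 1) := by
          refine sum_congr rfl fun j hj => ?_
          have := (mem_Ico.1 hj).2
          rw [Function.update_of_ne (by omega), Function.update_of_ne (by omega)]
        rw [e1, Function.update_of_ne (by omega), Function.update_self, hth]
        rw [qv_eq hm'] at hle'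
        nlinarith
  obtain ⟨th, c, -, -, hmem, -, hle⟩ := key
  refine ⟨th, hmem, ?_⟩
  have h0 := pot_nonneg hE s c (q n)
  rw [div_mul_eq_mul_div, le_div_iff₀ (by positivity)]
  linarith

end Crest.Agent.N206.TW
end

-- ▼ part N206/TW/Atoms
section

/-!
# Row 206, S0318: atom systems with the quadratic potential (helper61)
-/

set_option autoImplicit false

namespace Crest.Agent.N206.TW

open Finset

/-- weak orders of the adhesion -/
abbrev Ord (k : ℕ) : Type := Fin (k + 1) → Fin (k + 1) → Bool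

/-- the concave potential -/
def Bq (t : ℝ) : ℝ := 2 * t - t ^ 2

/-- the size of the injected noise -/
noncomputable def beta (k : ℕ) : ℝ := 1 / (2 * (Fintype.card (Ord k) : ℝ) ^ 2)

theorem beta_pos (k : ℕ) : 0 < beta k := by
  have : (0 : ℝ) < Fintype.card (Ord k) := by exact_mod_cast Fintype.card_pos
  unfold beta; positivity

theorem beta_le_one (k : ℕ) : beta k ≤ 1 := by
  have : (1 : ℝ) ≤ Fintype.card (Ord k) := by exact_mod_cast Fintype.card_pos
  unfold beta
  rw [div_le_one (by positivity)]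
  nlinarith

/-- The invariant of a weighted family of functions. -/
structure Good {V κ : Type} [Fintype κ] (d : V → V → ℝ) (o : V) (m : κ → V → ℝ) (w : κ → ℝ) :
    Prop where
  w_nonneg : ∀ p, 0 ≤ w p
  w_sum : ∑ p, w p = 1
  m_o : ∀ p, m p o = 0
  lip : ∀ (I : Finset κ) (x y : V), ∑ p ∈ I, |m p x - m p y| ≤ Bq (∑ p ∈ I, w p) * d x y

variable {V : Type} {d : V → V → ℝ} {o : V}

theorem Good.sum_le {κ : Type} [Fintype κ] {m : κ → V → ℝ} {w : κ → ℝ} (h : Good d o m w)
    (x y : V) : ∑ p, |m p x - m p y| ≤ d x y := by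
  have := h.lip univ x y
  rw [h.w_sum, Bq] at this
  linarith

theorem good_zero (hd : PMet d) (o : V) (κ : Type) [Fintype κ] [DecidableEq κ] :
    Good d o (fun (_ : Option κ) _ => 0) (fun p => if p = none then 1 else 0) := by
  refine ⟨fun p => by split_ifs <;> norm_num, by simp, fun _ => rfl, fun I x y => ?_⟩
  simp only [sub_self, abs_zero, sum_const_zero, sum_ite_eq', Bq]
  refine mul_nonneg ?_ (hd.nonneg x y)
  split_ifs <;> norm_num

/-- merging along a map -/
theorem Good.merge {κ κ' : Type} [Fintype κ] [Fintype κ'] [DecidableEq κ'] {m : κ → V → ℝ}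
    {w : κ → ℝ} (h : Good d o m w) (c : κ → κ') :
    Good d o (fun j => ∑ p with c p = j, m p) (fun j => ∑ p with c p = j, w p) := by
  refine ⟨fun j => sum_nonneg fun p _ => h.w_nonneg p, ?_, fun j => ?_, fun I x y => ?_⟩
  · rw [sum_fiberwise univ c w, h.w_sum]
  · simp [Finset.sum_apply, h.m_o]
  · rw [sum_fiberwise_eq_sum_filter]
    refine le_trans ?_ (h.lip _ x y)
    rw [← sum_fiberwise_eq_sum_filter]
    refine sum_le_sum fun j _ => ?_
    simp only [Finset.sum_apply]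
    rw [← sum_sub_distrib]
    exact abs_sum_le_sum_abs _ _

theorem sum_option_split {κ : Type} [DecidableEq κ] (I : Finset (Option κ)) (c : κ)
    (f : Option κ → ℝ) : ∑ p ∈ I, f p = ∑ j ∈ (eraseNone I).erase c, f (some j) +
      (if some c ∈ I then f (some c) else 0) + (if none ∈ I then f none else 0) := by
  have h1 : ∑ p ∈ I, f p = ∑ j ∈ eraseNone I, f (some j) + (if none ∈ I then f none else 0) := by
    rw [sum_eraseNone]
    by_cases h : none ∈ I
    · rw [if_pos h, ← add_sum_erase I f h, ← add_sum_erase I _ h]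
      simp only [Option.elim'_none, zero_add]
      rw [add_comm]
      congr 1
      refine sum_congr rfl fun p hp => ?_
      cases p with
      | none => simp at hp
      | some j => rfl
    · rw [if_neg h, add_zero]
      refine sum_congr rfl fun p hp => ?_
      cases p with
      | none => exact absurd hp h
      | some j => rfl
  rw [h1]
  congr 1
  by_cases h : some c ∈ I
  · rw [if_pos h, sum_erase_add _ _ (mem_eraseNone.2 h)]
  · rw [if_neg h, add_zero, erase_eq_of_notMem (mt mem_eraseNone.1 h)]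

/-- the functions after splitting the atom `c` -/
noncomputable def splitM {κ : Type} [DecidableEq κ] (m : κ → V → ℝ) (c : κ) (g : V → ℝ) :
    Option κ → V → ℝ
  | none => fun v => m c v / 2 - g v / 2
  | some j => if j = c then fun v => m c v / 2 + g v / 2 else m j

/-- the weights after splitting the atom `c` -/
noncomputable def splitW {κ : Type} [DecidableEq κ] (w : κ → ℝ) (c : κ) : Option κ → ℝ
  | none => w c / 2
  | some j => if j = c then w c / 2 else w j

theorem Good.split {κ : Type} [Fintype κ] [DecidableEq κ] (hd : PMet d) {m : κ → V → ℝ}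
    {w : κ → ℝ} (h : Good d o m w) (c : κ) {g : V → ℝ} (hg0 : g o = 0)
    (hg : ∀ x y, |g x - g y| ≤ w c ^ 2 / 2 * d x y) : Good d o (splitM m c g) (splitW w c) := by
  have hw := h.w_nonneg c
  have hsw : ∀ J : Finset κ, ∑ j ∈ J.erase c, splitW w c (some j) = ∑ j ∈ J.erase c, w j :=
    fun J => sum_congr rfl fun j hj => by simp [splitW, (mem_erase.1 hj).1]
  refine ⟨fun p => ?_, ?_, fun p => ?_, fun I x y => ?_⟩
  · cases p with
    | none => simp only [splitW]; positivity
    | some j =>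
      simp only [splitW]
      split_ifs
      · positivity
      · exact h.w_nonneg j
  · rw [sum_option_split univ c, hsw]
    have : eraseNone (univ : Finset (Option κ)) = univ := by ext; simp
    rw [this, ← h.w_sum, ← sum_erase_add univ w (mem_univ c)]
    simp [splitW]; ring
  · cases p with
    | none => simp [splitM, h.m_o, hg0]
    | some j =>
      simp only [splitM]
      split_ifs <;> simp [h.m_o, hg0]
  · rw [sum_option_split I c, sum_option_split I c (splitW w c), hsw]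
    set J := (eraseNone I).erase c with hJ
    have hcJ : c ∉ J := notMem_erase c _
    have e1 : ∑ j ∈ J, |splitM m c g (some j) x - splitM m c g (some j) y| =
        ∑ j ∈ J, |m j x - m j y| :=
      sum_congr rfl fun j hj => by simp [splitM, (mem_erase.1 hj).1]
    rw [e1]
    have h1 := h.lip J x y
    have h2 := h.lip (insert c J) x y
    have h3 : ∑ j ∈ insert c J, w j ≤ 1 := by
      rw [← h.w_sum]
      exact sum_le_sum_of_subset_of_nonneg (subset_univ _) fun p _ _ => h.w_nonneg p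
    rw [sum_insert hcJ] at h2 h3
    rw [sum_insert hcJ] at h2
    set t := ∑ j ∈ J, w j
    set X := ∑ j ∈ J, |m j x - m j y|
    have h4 := hg x y
    have hD := hd.nonneg x y
    set D := d x y
    set W := w c
    have ea : splitM m c g (some c) x - splitM m c g (some c) y =
        (m c x - m c y) / 2 + (g x - g y) / 2 := by simp [splitM]; ring
    have eb : splitM m c g none x - splitM m c g none y =
        (m c x - m c y) / 2 - (g x - g y) / 2 := by simp [splitM]; ring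
    have ew : splitW w c (some c) = W / 2 := by simp [splitW, W]
    have ew' : splitW w c none = W / 2 := rfl
    rw [ea, eb, ew, ew']
    set a := m c x - m c y
    set b := g x - g y
    have ha := abs_le.1 (le_refl |a|)
    have hb := abs_le.1 (le_refl |b|)
    have hp : |a / 2 + b / 2| ≤ |a| / 2 + |b| / 2 := abs_le.2 ⟨by linarith, by linarith⟩
    have hm : |a / 2 - b / 2| ≤ |a| / 2 + |b| / 2 := abs_le.2 ⟨by linarith, by linarith⟩
    have hmid : Bq (t + W / 2) * D = (Bq t * D + Bq (W + t) * D) / 2 + W ^ 2 / 4 * D := by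
      simp only [Bq]; ring
    split_ifs with c1 c2 c2
    · have hboth : |a / 2 + b / 2| + |a / 2 - b / 2| ≤ |a| ∨
          |a / 2 + b / 2| + |a / 2 - b / 2| ≤ |b| := by
        rcases abs_cases (a / 2 + b / 2) with e | e <;> rcases abs_cases (a / 2 - b / 2) with f | f
        · left; linarith
        · right; linarith
        · right; linarith
        · left; linarith
      have e2 : t + W / 2 + W / 2 = W + t := by ring
      rw [e2]
      rcases hboth with e | e
      · linarith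
      · have : (Bq t + W ^ 2 / 2) * D ≤ Bq (W + t) * D := by
          refine mul_le_mul_of_nonneg_right ?_ hD
          simp only [Bq]; nlinarith
        linarith
    · rw [add_zero, add_zero, hmid]; linarith
    · rw [add_zero, add_zero, hmid]; linarith
    · simpa using h1

variable [Fintype V]

theorem thr_zero (G : (V → Bool) → ℝ) : thr (0 : V → ℝ) G = 0 := by
  have : Tp (0 : V → ℝ) G = 0 := Tp_eq_zero fun τ hτ => by
    congr 1; funext v; simp [pat, z0, hτ.le]
  simp [thr, this]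

/-- Merge the atoms with the same order on the adhesion and split the heaviest one. -/
theorem renew {k : ℕ} (hd : PMet d) {m : Option (Ord k) → V → ℝ} {w : Option (Ord k) → ℝ}
    (h : Good d o m w) (α : Fin (k + 1) → V) (ho : o ∈ Set.range α) (g : V → ℝ)
    (hg : ∀ x y, |g x - g y| ≤ d x y) (hg0 : ∀ v ∈ Set.range α, g v = 0) :
    ∃ (m' : Option (Ord k) → V → ℝ) (w' : Option (Ord k) → ℝ), Good d o m' w' ∧
      (∀ G, DependsOn G (Set.range α) → ∑ p, thr (m' p) G = ∑ p, thr (m p) G) ∧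
      ∃ c, ∀ v, m' (some c) v - m' none v = beta k * g v := by
  classical
  let cl : Option (Ord k) → Ord k := fun p i j => decide (m p (α i) ≤ m p (α j))
  have h1 := h.merge cl
  set M : Ord k → V → ℝ := fun j => ∑ p with cl p = j, m p with hM
  set W : Ord k → ℝ := fun j => ∑ p with cl p = j, w p with hW
  have hT : (0 : ℝ) < Fintype.card (Ord k) := by exact_mod_cast Fintype.card_pos
  obtain ⟨c, -, hc⟩ := exists_le_of_sum_le (s := univ) (f := fun _ : Ord k =>
      1 / (Fintype.card (Ord k) : ℝ)) (g := W) univ_nonempty (by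
    rw [h1.w_sum, sum_const, card_univ, nsmul_eq_mul, mul_one_div_cancel hT.ne'])
  have hβ : beta k ≤ W c ^ 2 / 2 := by
    have : (1 / (Fintype.card (Ord k) : ℝ)) ^ 2 ≤ W c ^ 2 := by gcongr
    have e : beta k = (1 / (Fintype.card (Ord k) : ℝ)) ^ 2 / 2 := by
      unfold beta; field_simp
    linarith
  refine ⟨splitM M c fun v => beta k * g v, splitW W c, h1.split hd c (by simp [hg0 o ho])
    fun x y => ?_, fun G hG => ?_, c, fun v => by simp [splitM]⟩
  · rw [← mul_sub, abs_mul, abs_of_pos (beta_pos k)]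
    exact mul_le_mul hβ (hg x y) (abs_nonneg _) (by positivity)
  · have e1 : ∀ j, thr (M j) G = ∑ p with cl p = j, thr (m p) G := by
      intro j
      rcases (univ.filter fun p => cl p = j).eq_empty_or_nonempty with he | ⟨p₀, hp₀⟩
      · simp only [hM, he, sum_empty, thr_zero]
      obtain ⟨L, hL⟩ := exists_linear_thr ho (m p₀) hG
      have hc : ∀ p ∈ univ.filter fun p => cl p = j, Cone (Set.range α) o (m p₀) (m p) := by
        intro p hp
        refine ⟨h.m_o p, ?_⟩
        rintro _ ⟨i, rfl⟩ _ ⟨i', rfl⟩ hle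
        have e : cl p i i' = cl p₀ i i' := by rw [(mem_filter.1 hp).2, (mem_filter.1 hp₀).2]
        simpa [cl, hle] using e
      rw [hL (M j) ⟨h1.m_o j, fun u hu v hv hle => ?_⟩, sum_congr rfl fun p hp => hL _ (hc p hp)]
      · simp only [hM, map_sum]
      · simp only [hM, Finset.sum_apply]
        exact sum_le_sum fun p hp => (hc p hp).2 u hu v hv hle
    have e2 : thr (M c) G = thr (fun v => M c v / 2) G + thr (fun v => M c v / 2) G := by
      obtain ⟨L, hL⟩ := exists_linear_thr ho (M c) hG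
      rw [hL (M c) ⟨h1.m_o c, fun _ _ _ _ h => h⟩,
        hL (fun v => M c v / 2) ⟨by simp [h1.m_o c], fun _ _ _ _ h => by linarith⟩, ← map_add]
      congr 1; funext v; simp
    rw [← sum_fiberwise univ cl (fun p => thr (m p) G), ← sum_congr rfl fun j _ => e1 j,
      sum_option_split univ c, ← sum_erase_add univ (fun j => thr (M j) G) (mem_univ c), e2]
    have : eraseNone (univ : Finset (Option (Ord k))) = univ := by ext; simp
    rw [this, if_pos (mem_univ _), if_pos (mem_univ _), add_assoc]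
    congr 1
    · exact sum_congr rfl fun j hj => by simp [splitM, (mem_erase.1 hj).1]
    · congr 1
      · exact thr_congr_dep hG fun v hv => by simp [splitM, hg0 v hv]
      · exact thr_congr_dep hG fun v hv => by simp [splitM, hg0 v hv]

end Crest.Agent.N206.TW
private theorem rz_db90329517 : type_of% @_root_.Crest.Agent.N206.TW.splitM.eq_1 := @_root_.Crest.Agent.N206.TW.splitM.eq_1 -- L96
private theorem rz_6125c380e5 : type_of% @_root_.Crest.Agent.N206.TW.splitW.eq_1 := @_root_.Crest.Agent.N206.TW.splitW.eq_1 -- L102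
end

-- ▼ part N206/TW/Build
section

/-!
# Row 206, S0318: running the atom systems down the tree (helper61)
-/

set_option autoImplicit false

namespace Crest.Agent.N206.TW

open Finset

/-- Keep the first and the last element of every class. -/
theorem keep {κ : Type} [Fintype κ] (K : Finset ℕ) (key : ℕ → κ) :
    ∃ K' ⊆ K, K'.card ≤ 2 * Fintype.card κ ∧ ∀ j ∈ K, j ∈ K' ∨
      ∃ i ∈ K', ∃ i' ∈ K', i < j ∧ j < i' ∧ key i = key i' := by
  classical
  let K₁ := K.filter fun j => ∀ i ∈ K, key i = key j → j ≤ i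
  let K₂ := K.filter fun j => ∀ i ∈ K, key i = key j → i ≤ j
  have h1 : K₁.card ≤ Fintype.card κ := by
    rw [← card_univ]
    refine card_le_card_of_injOn key (fun _ _ => by simp) fun i hi j hj e => ?_
    simp only [K₁, coe_filter, Set.mem_ofPred_eq] at hi hj
    exact le_antisymm (hi.2 j hj.1 e.symm) (hj.2 i hi.1 e)
  have h2 : K₂.card ≤ Fintype.card κ := by
    rw [← card_univ]
    refine card_le_card_of_injOn key (fun _ _ => by simp) fun i hi j hj e => ?_
    simp only [K₂, coe_filter, Set.mem_ofPred_eq] at hi hj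
    exact le_antisymm (hj.2 i hi.1 e) (hi.2 j hj.1 e.symm)
  refine ⟨K₁ ∪ K₂, union_subset (filter_subset _ _) (filter_subset _ _),
    (card_union_le _ _).trans (by omega), fun j hj => ?_⟩
  obtain ⟨a, ha, ha'⟩ := (K.filter fun i => key i = key j).exists_min_image id ⟨j, by simp [hj]⟩
  obtain ⟨b, hb, hb'⟩ := (K.filter fun i => key i = key j).exists_max_image id ⟨j, by simp [hj]⟩
  simp only [mem_filter, id, and_imp] at ha ha' hb hb'
  have h3 : a ∈ K₁ ∪ K₂ :=
    mem_union_left _ (mem_filter.2 ⟨ha.1, fun i hi e => ha' i hi (e.trans ha.2)⟩)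
  have h4 : b ∈ K₁ ∪ K₂ :=
    mem_union_right _ (mem_filter.2 ⟨hb.1, fun i hi e => hb' i hi (e.trans hb.2)⟩)
  rcases (ha' j hj rfl).eq_or_lt with e | e
  · exact Or.inl (e ▸ h3)
  rcases (hb' j hj rfl).eq_or_lt with e' | e'
  · exact Or.inl (e' ▸ h4)
  exact Or.inr ⟨a, h3, b, h4, e, e', ha.2.trans hb.2.symm⟩

/-- the dyadic level of `D` at scale `x` -/
noncomputable def lv (s : ℕ) (D x : ℝ) : Fin (2 * s + 2) :=
  ⟨min (Nat.size ⌊min D (x * 2 ^ s) * 2 ^ s / x⌋₊) (2 * s + 1), by omega⟩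

theorem le_of_lv {s : ℕ} {D D' x : ℝ} (hD' : 0 ≤ D') (hx : 0 < x) (h : lv s D x = lv s D' x) :
    min D (x * 2 ^ s) ≤ 2 * D' + x / 2 ^ s := by
  have hW : (0 : ℝ) < 2 ^ s := by positivity
  have hb : ∀ D : ℝ, Nat.size ⌊min D (x * 2 ^ s) * 2 ^ s / x⌋₊ ≤ 2 * s + 1 := fun D => by
    rw [Nat.size_le]
    have h1 : min D (x * 2 ^ s) * 2 ^ s / x ≤ ((2 ^ (2 * s) : ℕ) : ℝ) := by
      rw [div_le_iff₀ hx]
      push_cast
      rw [two_mul, pow_add]
      nlinarith [mul_le_mul_of_nonneg_right (min_le_right D (x * 2 ^ s)) hW.le]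
    have h2 := Nat.floor_le_of_le h1
    have h3 : 0 < 2 ^ (2 * s) := by positivity
    rw [pow_succ]
    omega
  have h1 := congrArg Fin.val h
  simp only [lv, min_eq_left (hb _)] at h1
  set n := ⌊min D (x * 2 ^ s) * 2 ^ s / x⌋₊ with hn
  set n' := ⌊min D' (x * 2 ^ s) * 2 ^ s / x⌋₊ with hn'
  have h2 : n ≤ 2 * n' := by
    have h3 := Nat.lt_size_self n
    rw [h1] at h3
    rcases Nat.eq_zero_or_pos n'.size with e | e
    · rw [e] at h3; omega
    · have h4 : 2 ^ (n'.size - 1) ≤ n' := Nat.lt_size.1 (by omega)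
      have h5 : 2 ^ n'.size = 2 * 2 ^ (n'.size - 1) := by
        rw [← pow_succ']; congr 1; omega
      omega
  have h3 : min D (x * 2 ^ s) * 2 ^ s / x < n + 1 := Nat.lt_floor_add_one _
  have h4 : (n' : ℝ) ≤ min D' (x * 2 ^ s) * 2 ^ s / x :=
    Nat.floor_le (by have : 0 ≤ min D' (x * 2 ^ s) := le_min hD' (by positivity); positivity)
  have h5 : (n : ℝ) ≤ 2 * n' := by exact_mod_cast h2
  rw [div_lt_iff₀ hx] at h3
  rw [le_div_iff₀ hx] at h4
  have h6 := mul_le_mul_of_nonneg_right (min_le_left D' (x * 2 ^ s)) hW.le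
  have h7 : min D (x * 2 ^ s) * 2 ^ s ≤ (2 * D' + x / 2 ^ s) * 2 ^ s := by
    rw [add_mul, div_mul_cancel₀ _ hW.ne']
    nlinarith
  exact le_of_mul_le_mul_right h7 hW

/-- indices of the features -/
abbrev Ft (k : ℕ) : Type := Option (Fin (k + 1) × Fin (k + 1))

/-- indices of the scales -/
abbrev Sc (k : ℕ) : Type :=
  Fin (k + 1) × Fin (k + 1) ⊕ Fin (k + 1) × ((Fin (k + 1) → Bool) → Bool)

/-- the state at a node -/
structure St (V : Type) (k J : ℕ) where
  /-- kept depths -/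
  K : Finset ℕ
  /-- the block hosting the features of a kept depth -/
  blk : ℕ → Fin J
  /-- atoms -/
  m : Fin J → Ft k → Option (Ord k) → V → ℝ
  /-- weights -/
  w : Fin J → Ft k → Option (Ord k) → ℝ

variable {V : Type} [Fintype V] {k J : ℕ} {d : V → V → ℝ}

/-- the cut measure of a state -/
noncomputable def St.th (S : St V k J) : ((V → Bool) → ℝ) →ₗ[ℝ] ℝ :=
  ∑ b, ∑ φ, ∑ p, thr (S.m b φ p)

theorem St.th_apply (S : St V k J) (G : (V → Bool) → ℝ) :
    S.th G = ∑ b, ∑ φ, ∑ p, thr (S.m b φ p) G := by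
  simp only [St.th, LinearMap.sum_apply]

/-- the scales seen from an adhesion -/
noncomputable def scales (d : V → V → ℝ) (θ : ((V → Bool) → ℝ) →ₗ[ℝ] ℝ)
    (α : Fin (k + 1) → V) : Sc k → ℝ
  | .inl p => d (α p.1) (α p.2)
  | .inr p => θ (dis (fun σ => p.2 (σ ∘ α)) (ev (α p.1)))

/-- installing the features of a new node in a free block -/
theorem install (hd : PMet d) {o : V} (S : St V k J) (hS : ∀ b φ, Good d o (S.m b φ) (S.w b φ))
    (hinj : Set.InjOn S.blk S.K) {K' : Finset ℕ} (hK : K' ⊆ S.K) (hc : K'.card < J) {n : ℕ}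
    (hn : n ∉ S.K) (α γ : Fin (k + 1) → V) (ho : o ∈ Set.range α) :
    ∃ S' : St V k J, S'.K = insert n K' ∧ (∀ b φ, Good d o (S'.m b φ) (S'.w b φ)) ∧
      Set.InjOn S'.blk S'.K ∧ (∀ φ, ∃ c, ∀ v, S'.m (S'.blk n) φ (some c) v -
        S'.m (S'.blk n) φ none v = beta k * feat d α γ φ v) ∧
      (∀ i ∈ K', S'.m (S'.blk i) = S.m (S.blk i)) ∧
      ∀ G, DependsOn G (Set.range α) → S'.th G = S.th G := by
  classical
  obtain ⟨b, -, hb⟩ := exists_mem_notMem_of_card_lt_card (s := K'.image S.blk) (t := univ)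
    (card_image_le.trans_lt (by simpa using hc))
  choose m' w' h1 h2 h3 using fun φ : Ft k => renew hd (hS b φ) α ho (feat d α γ φ)
    (feat_lip hd α γ φ) fun v hv => feat_eq_zero hd α γ φ hv
  have hne : ∀ i ∈ K', i ≠ n := fun i hi e => hn (e ▸ hK hi)
  have hbk : ∀ i ∈ K', S.blk i ≠ b := fun i hi e => hb (mem_image.2 ⟨i, hi, e⟩)
  refine ⟨⟨insert n K', Function.update S.blk n b, Function.update S.m b m',
    Function.update S.w b w'⟩, rfl, fun b' φ => ?_, fun i hi j hj e => ?_, fun φ => ?_,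
    fun i hi => ?_, fun G hG => ?_⟩
  · by_cases e : b' = b
    · subst e; simpa using h1 φ
    · simpa [e] using hS b' φ
  · simp only [coe_insert, Set.mem_insert_iff, mem_coe] at hi hj
    rcases hi with rfl | hi <;> rcases hj with rfl | hj
    · rfl
    · simp only [Function.update_self, Function.update_of_ne (hne j hj)] at e
      exact absurd e.symm (hbk j hj)
    · simp only [Function.update_self, Function.update_of_ne (hne i hi)] at e
      exact absurd e (hbk i hi)
    · simp only [Function.update_of_ne (hne i hi), Function.update_of_ne (hne j hj)] at e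
      exact hinj (hK hi) (hK hj) e
  · simpa using h3 φ
  · simp [hne i hi, hbk i hi]
  · simp only [St.th_apply]
    refine sum_congr rfl fun b' _ => sum_congr rfl fun φ _ => ?_
    by_cases e : b' = b
    · subst e; simpa using h2 φ G hG
    · simp [e]

namespace RTD

variable {ι : Type} (T : RTD V k d ι)

omit [Fintype V]

/-- the ancestor at a given depth -/
def anc (t : ι) (i : ℕ) : ι := T.par^[T.dep t - i] t

theorem eq_root {t : ι} (h : T.dep t = 0) : t = T.root := by
  by_contra hn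
  have := T.dep_par t hn
  omega

theorem dep_iter (t : ι) (n : ℕ) : T.dep (T.par^[n] t) = T.dep t - n := by
  induction n with
  | zero => rfl
  | succ n ih =>
    rw [Function.iterate_succ_apply']
    by_cases h : T.par^[n] t = T.root
    · rw [h, T.dep_root] at ih
      rw [h, T.par_root, T.dep_root]
      omega
    · have := T.dep_par _ h
      omega

theorem dep_anc {t : ι} {i : ℕ} (h : i ≤ T.dep t) : T.dep (T.anc t i) = i := by
  rw [anc, dep_iter]; omega

theorem anc_self (t : ι) : T.anc t (T.dep t) = t := by simp [anc]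

theorem anc_zero (t : ι) : T.anc t 0 = T.root := T.eq_root (T.dep_anc (Nat.zero_le _))

theorem anc_anc {t : ι} {i j : ℕ} (h : i ≤ j) (h' : j ≤ T.dep t) :
    T.anc (T.anc t j) i = T.anc t i := by
  rw [anc, T.dep_anc h', anc, anc, ← Function.iterate_add_apply]
  congr 1; omega

theorem par_anc {t : ι} {i : ℕ} (h : i < T.dep t) : T.par (T.anc t (i + 1)) = T.anc t i := by
  rw [anc, anc, ← Function.iterate_succ_apply' T.par]
  congr 1; omega

theorem anc_ne_root {t : ι} {i : ℕ} (h0 : 0 < i) (h : i ≤ T.dep t) : T.anc t i ≠ T.root :=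
  fun e => by have := T.dep_anc h; rw [e, T.dep_root] at this; omega

theorem sub_anc {t : ι} {i j : ℕ} (h : i ≤ j) (h' : j ≤ T.dep t) :
    T.Sub (T.anc t i) (T.anc t j) := ⟨_, T.anc_anc h h'⟩

theorem Sub.spec {T : RTD V k d ι} {t s : ι} (h : T.Sub t s) :
    T.dep t ≤ T.dep s ∧ T.anc s (T.dep t) = t := by
  obtain ⟨n, rfl⟩ := h
  rw [dep_iter]
  refine ⟨Nat.sub_le _ _, ?_⟩
  by_cases h : n ≤ T.dep s
  · rw [anc]; congr 1; omega
  · rw [show T.dep s - n = 0 by omega, anc_zero]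
    exact (T.eq_root (by rw [dep_iter]; omega)).symm

theorem exists_rec {σ : Type} (Inv : ι → σ → Prop) (R : ι → σ → σ → Prop)
    (h0 : ∃ s, Inv T.root s)
    (hs : ∀ t, t ≠ T.root → ∀ s, Inv (T.par t) s → ∃ s', Inv t s' ∧ R t s s') :
    ∃ S : ι → σ, (∀ t, Inv t (S t)) ∧ ∀ t, t ≠ T.root → R t (S (T.par t)) (S t) := by
  obtain ⟨s₀, h0⟩ := h0
  have : Nonempty σ := ⟨s₀⟩
  choose! f hf using hs
  let F : ℕ → ι → σ := fun n => Nat.rec (fun _ => s₀) (fun _ g t => f t (g (T.par t))) n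
  have h1 : ∀ t, t ≠ T.root → F (T.dep t) t = f t (F (T.dep (T.par t)) (T.par t)) := by
    intro t ht
    rw [← T.dep_par t ht]
  have h2 : ∀ n t, T.dep t = n → Inv t (F (T.dep t) t) := by
    intro n
    induction n with
    | zero => intro t ht; rw [ht, T.eq_root ht]; exact h0
    | succ n ih =>
      intro t ht
      have hr : t ≠ T.root := fun e => by rw [e, T.dep_root] at ht; omega
      have := T.dep_par t hr
      rw [h1 t hr]
      exact (hf t hr _ (ih _ (by omega))).1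
  exact ⟨fun t => F (T.dep t) t, fun t => h2 _ t rfl, fun t ht => by
    simp only [h1 t ht]; exact (hf t ht _ (h2 _ _ rfl)).2⟩

end RTD

/-- the invariant of the state at the node `t` -/
structure Inv {ι : Type} (T : RTD V k d ι) (t : ι) (S : St V k J) : Prop where
  good : ∀ b φ, Good d T.o (S.m b φ) (S.w b φ)
  inj : Set.InjOn S.blk S.K
  self : T.dep t ∈ S.K
  le : ∀ i ∈ S.K, i ≤ T.dep t
  new : ∀ φ, ∃ c, ∀ v, S.m (S.blk (T.dep t)) φ (some c) v - S.m (S.blk (T.dep t)) φ none v =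
    beta k * feat d (T.adh t) (T.bag t) φ v

/-- the relation between the state `S` at the parent and the state `S'` at `t` -/
structure Step {ι : Type} (T : RTD V k d ι) (W : ℝ) (t : ι) (S S' : St V k J) : Prop where
  old : ∀ i ∈ S'.K, i = T.dep t ∨ i ∈ S.K ∧ S'.m (S'.blk i) = S.m (S.blk i)
  drop : ∀ j ∈ S.K, j ∈ S'.K ∨ ∃ i ∈ S.K, ∃ i' ∈ S.K, i ∈ S'.K ∧ i' ∈ S'.K ∧ i < j ∧ j < i' ∧
    Rel d W (Set.range (scales d S.th (T.adh t))) (T.adh (T.anc t i)) (T.adh (T.anc t i'))
      (T.adh t)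
  th : ∀ G, DependsOn G (T.A t) → S'.th G = S.th G

/-- the number of blocks -/
noncomputable def nblk (k s : ℕ) : ℕ := 2 * (2 * s + 2) ^ Nat.card (Sc k × Fin (k + 1)) + 1

theorem build {ι : Type} (hd : PMet d) (T : RTD V k d ι) (s : ℕ) :
    ∃ S : ι → St V k (nblk k s), (∀ t, Inv T t (S t)) ∧
      ∀ t, t ≠ T.root → Step T (2 ^ s) t (S (T.par t)) (S t) := by
  classical
  refine T.exists_rec _ _ ?_ fun t ht S hS => ?_
  · obtain ⟨S, h1, h2, h3, h4, -, -⟩ := install (J := nblk k s) hd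
      ⟨∅, fun _ => ⟨0, by simp [nblk]⟩, fun _ _ _ _ => 0, fun _ _ p => if p = none then 1 else 0⟩
      (fun _ _ => good_zero hd T.o _) (by simp) (K' := ∅) (by simp) (by simp [nblk])
      (n := T.dep T.root) (by simp) (T.adh T.root) (T.bag T.root) (T.o_mem _)
    exact ⟨S, h2, h3, by simp [h1], by simp [h1], h4⟩
  · obtain ⟨K', k1, k2, k3⟩ := keep S.K fun (i : ℕ) (p : Sc k × Fin (k + 1)) =>
      lv s (dA d (T.adh (T.anc t i)) (T.adh t p.2)) (scales d S.th (T.adh t) p.1)
    have hp := T.dep_par t ht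
    rw [Fintype.card_fun, Fintype.card_fin, ← Nat.card_eq_fintype_card] at k2
    obtain ⟨S', h1, h2, h3, h4, h5, h6⟩ := install hd S hS.good hS.inj k1
      (by simp only [nblk]; omega) (n := T.dep t) (fun h => by have := hS.le _ h; omega)
      (T.adh t) (T.bag t) (T.o_mem _)
    refine ⟨S', ⟨h2, h3, by simp [h1], fun i hi => ?_, h4⟩, fun i hi => ?_, fun j hj => ?_, h6⟩
    · rw [h1, mem_insert] at hi
      rcases hi with e | e
      · exact e.le
      · have := hS.le i (k1 e); omega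
    · rw [h1, mem_insert] at hi
      exact hi.imp id fun e => ⟨k1 e, h5 i e⟩
    · rw [h1]
      rcases k3 j hj with e | ⟨i, hi, i', hi', e1, e2, e3⟩
      · exact Or.inl (mem_insert_of_mem e)
      refine Or.inr ⟨i, k1 hi, i', k1 hi', mem_insert_of_mem hi, mem_insert_of_mem hi', e1, e2, ?_⟩
      rintro _ ⟨x, rfl⟩ hx _ ⟨c, rfl⟩
      exact le_of_lv (dA_nonneg hd _) hx (congrFun e3 (x, c))

end Crest.Agent.N206.TW
private theorem rz_bfb6278acf : type_of% @_root_.Crest.Agent.N206.TW.scales.eq_1 := @_root_.Crest.Agent.N206.TW.scales.eq_1 -- L118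
end

-- ▼ part N206/TW/Law
section

/-!
# Row 206, S0318: the glued law and the data along a root path (helper61)
-/

set_option autoImplicit false

namespace Crest.Agent.N206.TW

open Finset

theorem IsEx.mono {Ω : Type} {E : (Ω → ℝ) →ₗ[ℝ] ℝ} (h : IsEx E) {f g : Ω → ℝ}
    (hfg : ∀ ω, f ω ≤ g ω) : E f ≤ E g := by
  have := h.pos (g - f) fun ω => sub_nonneg.2 (hfg ω)
  rw [map_sub] at this
  linarith

theorem IsEx.const {Ω : Type} {E : (Ω → ℝ) →ₗ[ℝ] ℝ} (h : IsEx E) (c : ℝ) :
    E (fun _ => c) = c := by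
  have : (fun _ : Ω => c) = c • fun _ => (1 : ℝ) := by funext; simp
  rw [this, map_smul, h.one, smul_eq_mul, mul_one]

theorem dis_nonneg {Ω : Type} (F F' : Ω → Bool) (σ : Ω) : 0 ≤ dis F F' σ := by
  unfold dis; split_ifs <;> norm_num

theorem bf_nonneg {Ω : Type} (F : Ω → Bool) (σ : Ω) : 0 ≤ bf F σ := by
  unfold bf; split_ifs <;> norm_num

theorem bf_le_one {Ω : Type} (F : Ω → Bool) (σ : Ω) : bf F σ ≤ 1 := by
  unfold bf; split_ifs <;> norm_num

theorem pmet_dis {Ω : Type} {E : (Ω → ℝ) →ₗ[ℝ] ℝ} (h : IsEx E) {Z : ℝ} (hZ : 0 ≤ Z) :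
    PMet fun F F' : Ω → Bool => Z * E (dis F F') := by
  refine ⟨fun F => ?_, fun F F' => ?_, fun F F' F'' => ?_⟩
  · have : dis F F = 0 := by funext σ; simp [dis]
    simp [this]
  · have : dis F F' = dis F' F := by funext σ; simp [dis, eq_comm]
    rw [this]
  · rw [← mul_add, ← map_add]
    refine mul_le_mul_of_nonneg_left (h.mono fun σ => ?_) hZ
    simp only [dis, Pi.add_apply]
    cases F σ <;> cases F' σ <;> cases F'' σ <;> simp

variable {V ι : Type} [Fintype V] {k J : ℕ} {d : V → V → ℝ}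

omit [Fintype V] in
theorem dep_dis {A : Set V} {F F' : (V → Bool) → Bool} (h : DependsOn F A) (h' : DependsOn F' A) :
    DependsOn (dis F F') A := fun σ τ e => by simp only [dis, h e, h' e]

omit [Fintype V] in
theorem dep_bf {A : Set V} {F : (V → Bool) → Bool} (h : DependsOn F A) :
    DependsOn (bf F) A := fun σ τ e => by simp only [bf, h e]

omit [Fintype V] in
theorem dep_ev {A : Set V} {v : V} (h : v ∈ A) : DependsOn (ev v) A := fun _ _ e => e v h

theorem St.th_mono (S : St V k J) {G G' : (V → Bool) → ℝ}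
    (h : ∀ σ, G σ - G z0 ≤ G' σ - G' z0) : S.th G ≤ S.th G' := by
  simp only [St.th_apply]
  exact sum_le_sum fun _ _ => sum_le_sum fun _ _ => sum_le_sum fun _ _ => thr_mono _ h

theorem St.th_dis_le {o : V} {S : St V k J} (hS : ∀ b φ, Good d o (S.m b φ) (S.w b φ)) (x y : V) :
    S.th (dis (ev x) (ev y)) ≤ (J * Fintype.card (Ft k) : ℕ) * d x y := by
  simp only [St.th_apply, thr_dis]
  refine (sum_le_sum fun b _ => sum_le_sum fun φ _ => (hS b φ).sum_le x y).trans (le_of_eq ?_)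
  simp only [sum_const, card_univ, Fintype.card_fin, nsmul_eq_mul]
  push_cast; ring

theorem St.th_ev_le {o : V} {S : St V k J} (hS : ∀ b φ, Good d o (S.m b φ) (S.w b φ)) (x : V) :
    S.th (bf (ev x)) ≤ (J * Fintype.card (Ft k) : ℕ) * d x o := by
  refine le_trans (le_of_eq ?_) (St.th_dis_le hS x o)
  simp only [St.th_apply, thr_dis, thr_ev, (hS _ _).m_o, sub_zero]

/-- The states along the tree together with the glued law. -/
structure World (T : RTD V k d ι) (J : ℕ) (W Z : ℝ) where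
  /-- the states -/
  S : ι → St V k J
  /-- the glued law -/
  E : ((V → Bool) → ℝ) →ₗ[ℝ] ℝ
  hd : PMet d
  inv : ∀ t, Inv T t (S t)
  step : ∀ t, t ≠ T.root → Step T W t (S (T.par t)) (S t)
  ex : IsEx E
  Z_pos : 0 < Z
  marg : ∀ t G, DependsOn G (T.B t) → G z0 = 0 → Z * E G = (S t).th G
  markov : ∀ t, t ≠ T.root → ∀ f, DependsOn f (T.In t) → (∀ σ, 0 ≤ f σ ∧ f σ ≤ 1) →
    ∃ q : (V → Bool) → ℝ, DependsOn q (T.A t) ∧ (∀ σ, 0 ≤ q σ ∧ q σ ≤ 1) ∧
      ∀ g, DependsOn g (T.Out t) → E (fun σ => f σ * g σ) = E (fun σ => q σ * g σ)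
  small : ∑ v, E (bf (ev v)) ≤ 1 / 10

theorem exists_world [Fintype ι] (glue : GlueStmt) (hd : PMet d) (T : RTD V k d ι) (s : ℕ) :
    ∃ Z, Nonempty (World T (nblk k s) (2 ^ s) Z) := by
  obtain ⟨S, hS, hS'⟩ := build hd T s
  set C : ℝ := ((nblk k s * Fintype.card (Ft k) : ℕ) : ℝ) with hC
  have hR : 0 ≤ C * ∑ v, d v T.o :=
    mul_nonneg (Nat.cast_nonneg _) (sum_nonneg fun v _ => hd.nonneg _ _)
  set Z : ℝ := 10 * (C * ∑ v, d v T.o) + 1 with hZ
  have hZ0 : 0 < Z := by linarith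
  let ν : ι → ((V → Bool) → ℝ) →ₗ[ℝ] ℝ := fun t =>
    LinearMap.proj (R := ℝ) (φ := fun _ => ℝ) z0 + Z⁻¹ • (S t).th
  have hν : ∀ t G, ν t G = G z0 + Z⁻¹ * (S t).th G := fun _ _ => rfl
  have h1 : ∀ t, IsEx (ν t) := fun t => by
    refine ⟨fun G hG => ?_, by simp [hν, St.th_apply, thr_const]⟩
    have h2 : (S t).th (-(G z0) • ∑ v, bf (ev v)) ≤ (S t).th G := by
      refine St.th_mono _ fun σ => ?_
      have e0 : (∑ v : V, bf (ev v)) z0 = 0 := by simp [Finset.sum_apply, bf, ev, z0]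
      simp only [Pi.smul_apply, smul_eq_mul, e0, mul_zero, sub_zero]
      by_cases h : σ = z0
      · rw [h, e0]; simp
      · obtain ⟨v, hv⟩ := Function.ne_iff.1 h
        have e1 : 1 ≤ (∑ v : V, bf (ev v)) σ := by
          rw [Finset.sum_apply]
          refine le_trans ?_ (single_le_sum (fun v _ => bf_nonneg (ev v) σ) (mem_univ v))
          have : σ v = true := by simpa [z0] using hv
          simp [bf, ev, this]
        nlinarith [hG σ, hG z0]
    rw [map_smul, map_sum, smul_eq_mul] at h2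
    have h3 : ∑ v, (S t).th (bf (ev v)) ≤ Z := by
      refine (sum_le_sum fun v _ => St.th_ev_le (hS t).good v).trans ?_
      rw [← mul_sum]
      linarith
    have h4 : -(G z0) * Z ≤ (S t).th G := by nlinarith [hG z0]
    have h5 := mul_le_mul_of_nonneg_left h4 (inv_nonneg.2 hZ0.le)
    rw [mul_comm (-(G z0)), ← mul_assoc, inv_mul_cancel₀ hZ0.ne'] at h5
    rw [hν]
    linarith
  obtain ⟨E, e1, e2, e3⟩ := glue V ι k d T ν h1 fun t f hf => by
    by_cases ht : t = T.root
    · rw [ht, T.par_root]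
    · rw [hν, hν, (hS' t ht).th f hf]
  have e4 : ∀ t G, DependsOn G (T.B t) → G z0 = 0 → Z * E G = (S t).th G := fun t G hG h0 => by
    rw [e2 t G hG, hν, h0, zero_add, ← mul_assoc, mul_inv_cancel₀ hZ0.ne', one_mul]
  refine ⟨Z, ⟨⟨S, E, hd, hS, hS', e1, hZ0, e4, e3, ?_⟩⟩⟩
  have h2 : Z * ∑ v, E (bf (ev v)) ≤ C * ∑ v, d v T.o := by
    rw [mul_sum, mul_sum]
    refine sum_le_sum fun v _ => ?_
    obtain ⟨t, ht⟩ := T.cover v
    rw [e4 t _ (dep_bf (dep_ev ht)) (by simp [bf, ev, z0])]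
    exact St.th_ev_le (hS t).good v
  refine le_of_mul_le_mul_left (h2.trans ?_) hZ0
  linarith

/-- Boolean functions of the pattern on `A` which vanish on the trivial pattern -/
def Fn (A : Set V) : Set ((V → Bool) → Bool) := {F | DependsOn F A ∧ F z0 = false}

omit [Fintype V] in
theorem Fn_mono {A B : Set V} (h : A ⊆ B) : Fn A ⊆ Fn B := fun _ hF => ⟨hF.1.mono h, hF.2⟩

namespace World

variable {T : RTD V k d ι} {W Z : ℝ} (X : World T J W Z)

/-- the disagreement metric -/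
def ρ (F F' : (V → Bool) → Bool) : ℝ := Z * X.E (dis F F')

theorem pmet : PMet X.ρ := pmet_dis X.ex X.Z_pos.le

theorem ρ_eq {t : ι} {F F' : (V → Bool) → Bool} (hF : F ∈ Fn (T.B t)) (hF' : F' ∈ Fn (T.B t)) :
    X.ρ F F' = (X.S t).th (dis F F') :=
  X.marg t _ (dep_dis hF.1 hF'.1) (by simp [dis, hF.2, hF'.2])

theorem up (x y : V) : X.ρ (ev x) (ev y) ≤ (J * Fintype.card (Ft k) : ℕ) * d x y := by
  refine T.lip (fun x y => X.ρ (ev x) (ev y)) _ (Nat.cast_nonneg _)
    ⟨fun _ => X.pmet.self _, fun _ _ => X.pmet.comm _ _, fun _ _ _ => X.pmet.tri _ _ _⟩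
    (fun t x hx y hy => ?_) x y
  rw [X.ρ_eq (t := t) ⟨dep_ev hx, rfl⟩ ⟨dep_ev hy, rfl⟩]
  exact St.th_dis_le (X.inv t).good x y

theorem step_anc {n : ι} {l : ℕ} (hl : l < T.dep n) :
    Step T W (T.anc n (l + 1)) (X.S (T.anc n l)) (X.S (T.anc n (l + 1))) := by
  have := X.step _ (T.anc_ne_root (t := n) (Nat.succ_pos l) hl)
  rwa [T.par_anc hl] at this

theorem frozen {n : ι} {i m : ℕ} (hm : m ≤ T.dep n) (hi : i ∈ (X.S (T.anc n m)).K) :
    (X.S (T.anc n m)).m ((X.S (T.anc n m)).blk i) =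
      (X.S (T.anc n i)).m ((X.S (T.anc n i)).blk i) := by
  induction m with
  | zero =>
    have := (X.inv _).le i hi
    rw [T.dep_anc hm] at this
    rw [show i = 0 by omega]
  | succ m ih =>
    rcases (X.step_anc hm).old i hi with e | ⟨e, e'⟩
    · rw [T.dep_anc hm] at e
      rw [e]
    · rw [e', ih (by omega) e]

/-- the data along the path from the root to `n` -/
noncomputable def path (n : ι) : PathSys V ((V → Bool) → Bool) k d (beta k)
    (J * Fintype.card (Ft k) : ℕ) W (T.dep n) where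
  α j := T.adh (T.anc n j)
  γ j := T.bag (T.anc n j)
  ρ := X.ρ
  ev := ev
  FA j := Fn (T.A (T.anc n j))
  FB j := Fn (T.B (T.anc n j))
  K j := (X.S (T.anc n j)).K
  M j := Set.range (scales d (X.S (T.anc n (j - 1))).th (T.adh (T.anc n j)))
  hd := X.hd
  hρ := X.pmet
  up := X.up
  root c c' := by rw [T.anc_zero, T.adh_root, T.adh_root]
  adh_bag j _ := T.adh_bag _
  adh_par j hj := by rw [← T.par_anc hj]; exact T.adh_par _
  sep i l m hi hl hm z hz a ha := by
    cases i with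
    | zero =>
      rw [T.anc_zero] at ha
      obtain ⟨c, rfl⟩ := ha
      exact ⟨T.o, T.o_mem _, by rw [T.adh_root, X.hd.self, add_zero]⟩
    | succ i =>
      refine T.sep _ _ (T.anc n i) (T.sub_anc hl hm) (fun h => ?_) z hz a ?_
      · have := (RTD.Sub.spec h).1
        rw [T.dep_anc (by omega), T.dep_anc (by omega)] at this
        omega
      · rw [← T.par_anc (by omega)]; exact T.adh_par _ ha
  ev_FB j _ v hv := ⟨dep_ev hv, rfl⟩
  FA_FB j _ := Fn_mono (T.adh_bag _)
  FA_par j hj := Fn_mono (by rw [← T.par_anc hj]; exact T.adh_par _)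
  K_zero := by
    have h := X.inv (T.anc n 0)
    have e := T.dep_anc (t := n) (Nat.zero_le _)
    ext i
    refine ⟨fun hi => ?_, fun hi => ?_⟩
    · have := h.le i hi
      simp only [mem_singleton]; omega
    · rw [mem_singleton.1 hi]
      have := h.self
      rwa [e] at this
  K_new l hl := by
    have := (X.inv (T.anc n (l + 1))).self
    rwa [T.dep_anc hl] at this
  K_sub l hl i hi := by
    have := (X.step_anc hl).old i hi
    rw [T.dep_anc hl] at this
    exact this.imp id fun h => h.1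
  K_drop l hl j hj := by
    refine ((X.step_anc hl).drop j hj).imp id ?_
    rintro ⟨i, hi, i', hi', h1, h2, h3, h4, h5⟩
    have h6 := (X.inv _).le i' hi'
    rw [T.dep_anc hl.le] at h6
    rw [T.anc_anc (by omega) hl, T.anc_anc (by omega) hl] at h5
    exact ⟨i, hi, i', hi', h1, h2, h3, h4, h5⟩
  lam i hi φ := by
    obtain ⟨c, hc⟩ := (X.inv (T.anc n i)).new φ
    rw [T.dep_anc hi] at hc
    set μ := (X.S (T.anc n i)).m ((X.S (T.anc n i)).blk i) φ with hμ
    refine ⟨fun F => lam (μ (some c)) (bf F) - lam (μ none) (bf F), fun F hF => ?_, fun v => ?_,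
      fun m hm hK F hF F' hF' => ?_⟩
    · refine sub_eq_zero.2 (lam_congr_dep (dep_bf hF.1) fun v hv => ?_)
      have := hc v
      rw [feat_eq_zero X.hd _ _ φ hv, mul_zero] at this
      linarith
    · simp only [lam_ev, hc]
    · have h1 := lam_sub_le (μ (some c)) (hF.2.trans hF'.2.symm)
      have h2 := lam_sub_le (μ none) (hF'.2.trans hF.2.symm)
      have h3 : dis F' F = dis F F' := by funext σ; simp [dis, eq_comm]
      have h0 : ∀ g : V → ℝ, 0 ≤ thr g (dis F F') := fun g => thr_nonneg g fun σ => by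
        simpa [dis, hF.2, hF'.2] using dis_nonneg F F' σ
      have h4 : thr (μ (some c)) (dis F F') + thr (μ none) (dis F F') ≤
          ∑ p, thr (μ p) (dis F F') := by
        rw [Fintype.sum_option, add_comm]
        exact add_le_add le_rfl
          (single_le_sum (f := fun c => thr (μ (some c)) (dis F F')) (fun _ _ => h0 _) (mem_univ c))
      have h5 : ∑ p, thr (μ p) (dis F F') ≤ (X.S (T.anc n m)).th (dis F F') := by
        rw [St.th_apply, hμ, ← X.frozen hm hK]
        refine le_trans ?_ (single_le_sum (f := fun b => ∑ φ, ∑ p,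
          thr ((X.S (T.anc n m)).m b φ p) (dis F F'))
          (fun _ _ => sum_nonneg fun _ _ => sum_nonneg fun _ _ => h0 _)
          (mem_univ ((X.S (T.anc n m)).blk i)))
        exact single_le_sum (f := fun φ => ∑ p,
          thr ((X.S (T.anc n m)).m ((X.S (T.anc n m)).blk i) φ p) (dis F F'))
          (fun _ _ => sum_nonneg fun _ _ => h0 _) (mem_univ φ)
      rw [h3] at h2
      rw [X.ρ_eq hF hF']
      linarith
  M_d l _ _ := by
    rintro _ ⟨c, rfl⟩ _ ⟨c', rfl⟩
    exact ⟨.inl (c, c'), rfl⟩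
  M_ρ l hl h0 F hF := by
    classical
    rintro _ ⟨c, rfl⟩
    obtain ⟨l, rfl⟩ : ∃ l', l = l' + 1 := ⟨l - 1, by omega⟩
    have hsub : T.A (T.anc n (l + 1)) ⊆ T.B (T.anc n l) := by
      rw [← T.par_anc hl]; exact T.adh_par _
    set α := T.adh (T.anc n (l + 1)) with hα
    refine ⟨.inr (c, fun τ => F fun v => if h : ∃ c, α c = v then τ h.choose else false), ?_⟩
    rw [X.ρ_eq (Fn_mono hsub hF) ⟨dep_ev (hsub ⟨c, rfl⟩), rfl⟩]
    simp only [scales, Nat.add_sub_cancel]
    congr 2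
    funext σ
    refine hF.1 fun v hv => ?_
    have hv' : ∃ c, α c = v := hv
    rw [dif_pos hv', Function.comp_apply, hv'.choose_spec]

end World

end Crest.Agent.N206.TW
end

-- ▼ part N206/TW/Main

/-!
# Row 206, S0318: the lower bound for the glued law (helper61)
-/

set_option autoImplicit false

namespace Crest.Agent.N206.TW

open Finset Filter Topology

/-- the numerical constraints on the constants -/
structure Consts (β C W M K κ : ℝ) : Prop where
  hβ : 0 < β
  hβ1 : β ≤ 1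
  hC : 0 ≤ C
  hM : β * M = 4 * (β + 2 * C)
  hK : 2 * M * K = 1
  hW1 : 4 * C * M ≤ W
  hW2 : 4 * M * (M + 2) ≤ β * W
  hκ : 0 < κ
  hκ1 : 4 * κ ≤ K
  hκ2 : κ * ((β / 40 + C) * W + 1 + 2 * M) ≤ K

theorem Consts.W24 {β C W M K κ : ℝ} (h : Consts β C W M K κ) : 24 ≤ W := by
  have hM4 : 4 ≤ M := by nlinarith [h.hβ, h.hC, h.hM]
  nlinarith [h.hβ, h.hβ1, h.hW2]

theorem exists_scale (A : ℝ) (hA : 0 ≤ A) (n : ℕ) :
    ∃ s : ℕ, A * (2 * (2 * (s : ℝ) + 2) ^ n + 1) ^ 2 ≤ 2 ^ s := by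
  have hA' : 0 < 9 * 16 ^ n * A + 1 := by positivity
  have h := (tendsto_pow_const_div_const_pow_of_one_lt (2 * n)
    (show (1 : ℝ) < 2 by norm_num)).eventually (gt_mem_nhds (inv_pos.2 hA'))
  obtain ⟨s, h1, h2⟩ := (h.and (eventually_ge_atTop 1)).exists
  refine ⟨s, ?_⟩
  have hs : (1 : ℝ) ≤ s := by exact_mod_cast h2
  rw [div_lt_iff₀ (by positivity), inv_mul_eq_div, lt_div_iff₀ hA'] at h1
  have h3 : (2 * (s : ℝ) + 2) ^ n ≤ 4 ^ n * s ^ n := by
    rw [← mul_pow]; exact pow_le_pow_left₀ (by positivity) (by linarith) n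
  have h4 : 1 ≤ (2 * (s : ℝ) + 2) ^ n := one_le_pow₀ (by linarith)
  have h5 : (2 * (2 * (s : ℝ) + 2) ^ n + 1) ^ 2 ≤ (3 * (4 ^ n * s ^ n)) ^ 2 :=
    pow_le_pow_left₀ (by positivity) (by linarith) 2
  have h6 : (3 * (4 ^ n * (s : ℝ) ^ n)) ^ 2 = 9 * 16 ^ n * s ^ (2 * n) := by
    rw [show (16 : ℝ) = 4 ^ 2 by norm_num, ← pow_mul]; ring
  have h7 : 0 ≤ (s : ℝ) ^ (2 * n) := by positivity
  nlinarith [mul_le_mul_of_nonneg_left h5 hA]

theorem exists_consts (k : ℕ) : ∃ (s : ℕ) (M K κ : ℝ),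
    Consts (beta k) (nblk k s * Fintype.card (Ft k) : ℕ) (2 ^ s) M K κ := by
  have hβ := beta_pos k
  have hβ1 := beta_le_one k
  obtain ⟨s, hs⟩ := exists_scale (672 * (Fintype.card (Ft k) : ℝ) ^ 2 / beta k ^ 3)
    (by positivity) (Nat.card (Sc k × Fin (k + 1)))
  set β := beta k
  set C : ℝ := ((nblk k s * Fintype.card (Ft k) : ℕ) : ℝ) with hC
  have hC1 : 1 ≤ C := by
    have : 1 ≤ nblk k s * Fintype.card (Ft k) :=
      Nat.mul_pos (Nat.succ_pos _) Fintype.card_pos
    rw [hC]; exact_mod_cast this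
  have h1 : 672 * (C / β) ^ 2 ≤ β * 2 ^ s := by
    refine le_trans (le_of_eq ?_) (mul_le_mul_of_nonneg_left hs hβ.le)
    rw [hC, nblk]; push_cast; field_simp
  set u := C / β with hu
  have hu1 : C ≤ u := by rw [hu, le_div_iff₀ hβ]; nlinarith
  have h2 : (0 : ℝ) < 2 ^ s := by positivity
  have hM : 0 < 4 + 8 * u := by linarith
  have hD : 0 < (β / 40 + C) * 2 ^ s + 1 + 2 * (4 + 8 * u) := by positivity
  refine ⟨s, 4 + 8 * u, (2 * (4 + 8 * u))⁻¹, min ((2 * (4 + 8 * u))⁻¹ / 4)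
    ((2 * (4 + 8 * u))⁻¹ / ((β / 40 + C) * 2 ^ s + 1 + 2 * (4 + 8 * u))), hβ, hβ1, by linarith,
    by rw [hu]; field_simp; ring, mul_inv_cancel₀ (by positivity), by nlinarith, by nlinarith,
    by positivity, ?_, ?_⟩
  · linarith [min_le_left ((2 * (4 + 8 * u))⁻¹ / 4)
      ((2 * (4 + 8 * u))⁻¹ / ((β / 40 + C) * 2 ^ s + 1 + 2 * (4 + 8 * u)))]
  · exact (le_div_iff₀ hD).1 (min_le_right _ _)

theorem exists_vals {V : Type} {k : ℕ} {α : Fin (k + 1) → V} {q : (V → Bool) → ℝ}
    (h : DependsOn q (Set.range α)) : ∃ Q : Finset ℝ, Q.card ≤ 2 ^ (k + 1) ∧ ∀ σ, q σ ∈ Q := by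
  classical
  refine ⟨univ.image fun τ : Fin (k + 1) → Bool =>
    q fun v => if h : ∃ c, α c = v then τ h.choose else false, card_image_le.trans (by simp),
    fun σ => mem_image.2 ⟨σ ∘ α, mem_univ _, h fun v hv => ?_⟩⟩
  have hv' : ∃ c, α c = v := hv
  rw [dif_pos hv', Function.comp_apply, hv'.choose_spec]

variable {V ι : Type} [Fintype V] {k J : ℕ} {d : V → V → ℝ}

omit [Fintype V] in
theorem RTD.par_out (T : RTD V k d ι) {t : ι} (ht : t ≠ T.root) : T.B (T.par t) ⊆ T.Out t :=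
  fun _ hv => ⟨_, fun h => by have := h.spec.1; have := T.dep_par t ht; omega, hv⟩

namespace World

variable {T : RTD V k d ι} {W Z : ℝ} (X : World T J W Z)

theorem small_z0 {A : Set V} {x : V} {q : (V → Bool) → ℝ} (hq : DependsOn q A) (h0 : 0 ≤ q z0)
    (h : ∀ g, DependsOn g A → X.E (fun σ => bf (ev x) σ * g σ) = X.E (fun σ => q σ * g σ)) :
    q z0 ≤ 1 / 4 := by
  classical
  let g : (V → Bool) → ℝ := fun σ => if ∀ v ∈ A, σ v = false then 1 else 0
  have hg : DependsOn g A := fun σ τ e => by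
    have : (∀ v ∈ A, σ v = false) ↔ ∀ v ∈ A, τ v = false :=
      forall₂_congr fun v hv => by rw [e v hv]
    simp only [g, this]
  have h1 := h g hg
  have h2 : (fun σ => q σ * g σ) = q z0 • g := by
    funext σ
    simp only [g, Pi.smul_apply, smul_eq_mul]
    split_ifs with e
    · rw [hq (y := z0) e]
    · simp
  have h3 : X.E (fun σ => bf (ev x) σ * g σ) ≤ ∑ v, X.E (bf (ev v)) := by
    refine le_trans (X.ex.mono fun σ => ?_) (single_le_sum (f := fun v => X.E (bf (ev v)))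
      (fun v _ => X.ex.pos _ (bf_nonneg _)) (mem_univ x))
    have := bf_nonneg (ev x) σ
    simp only [g]
    split_ifs <;> linarith
  have h4 : X.E (fun _ => 1) ≤ X.E (g + ∑ v, bf (ev v)) := by
    refine X.ex.mono fun σ => ?_
    have h5 : 0 ≤ ∑ v, bf (ev v) σ := sum_nonneg fun v _ => bf_nonneg _ _
    simp only [g, Pi.add_apply, Finset.sum_apply]
    split_ifs with e
    · linarith
    · push Not at e
      obtain ⟨v, -, hv⟩ := e
      rw [zero_add]
      refine le_trans ?_ (single_le_sum (fun v _ => bf_nonneg (ev v) σ) (mem_univ v))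
      have : σ v = true := by simpa using hv
      simp [bf, ev, this]
  rw [X.ex.one, map_add, map_sum] at h4
  rw [h2, map_smul, smul_eq_mul] at h1
  nlinarith [X.small]

/-- One side of the lower bound. -/
theorem side {M K κ Cm : ℝ}
    (hc : Consts (beta k) (J * Fintype.card (Ft k) : ℕ) W M K κ)
    (hm : ∀ (q : ℕ → (V → Bool) → ℝ) (j₀ n : ℕ), j₀ ≤ n →
      (∀ j, ∃ Q : Finset ℝ, Q.card ≤ 2 ^ (k + 1) ∧ ∀ ω, q j ω ∈ Q) →
      (∀ j, j₀ ≤ j → j < n → ∀ φ : ℝ → ℝ,
        X.E (fun ω => (q (j + 1) ω - q j ω) * φ (q j ω)) = 0) →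
      ∃ th : ℕ → ℝ, (∀ j, 1 / 4 ≤ th j ∧ th j ≤ 3 / 4) ∧
        ∑ j ∈ Finset.Ico j₀ n,
            X.E (fun ω => if (th j < q j ω ↔ th (j + 1) < q (j + 1) ω) then 0 else 1) ≤
          Cm * (X.E (fun ω => q n ω ^ 2) - X.E (fun ω => q j₀ ω ^ 2)))
    {n : ι} {x : V} (hx : x ∈ T.B n) {j : ℕ} (hj : j ≤ T.dep n) :
    ∃ (q : (V → Bool) → ℝ) (th : ℝ) (a : V), (∀ σ, 0 ≤ q σ ∧ q σ ≤ 1) ∧ 1 / 4 ≤ th ∧
      th ≤ 3 / 4 ∧ a ∈ T.B (T.anc n j) ∧ DependsOn q (T.B (T.anc n j)) ∧
      κ * (beta k / 40 * d x a) + K * X.ρ (fun σ => decide (th < q σ)) (ev a) ≤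
        Cm * (Z * X.E fun σ => q σ * (1 - q σ)) ∧
      ∀ g, (j < T.dep n → DependsOn g (T.Out (T.anc n (j + 1)))) →
        X.E (fun σ => bf (ev x) σ * g σ) = X.E (fun σ => q σ * g σ) := by
  classical
  have key : ∀ i, ∃ q : (V → Bool) → ℝ, (∀ σ, 0 ≤ q σ ∧ q σ ≤ 1) ∧
      (∃ α : Fin (k + 1) → V, DependsOn q (Set.range α)) ∧ (i = T.dep n + 1 → q = bf (ev x)) ∧
      (0 < i → i ≤ T.dep n → DependsOn q (T.A (T.anc n i)) ∧
        ∀ g, DependsOn g (T.Out (T.anc n i)) →
          X.E (fun σ => bf (ev x) σ * g σ) = X.E (fun σ => q σ * g σ)) := by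
    intro i
    by_cases h : 0 < i ∧ i ≤ T.dep n
    · obtain ⟨q, h1, h2, h3⟩ := X.markov _ (T.anc_ne_root h.1 h.2) (bf (ev x))
        (dep_bf (dep_ev ⟨n, ⟨_, rfl⟩, hx⟩)) fun σ => ⟨bf_nonneg _ _, bf_le_one _ _⟩
      exact ⟨q, h2, ⟨_, h1⟩, fun e => by omega, fun _ _ => ⟨h1, h3⟩⟩
    · exact ⟨bf (ev x), fun σ => ⟨bf_nonneg _ _, bf_le_one _ _⟩, ⟨_, dep_bf (dep_ev hx)⟩,
        fun _ => rfl, fun h1 h2 => (h ⟨h1, h2⟩).elim⟩
  choose q hq1 hq2 hq3 hq4 using key
  have hq5 := hq3 _ rfl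
  have hout : ∀ i, i < T.dep n → T.B (T.anc n i) ⊆ T.Out (T.anc n (i + 1)) := fun i hi => by
    have := T.par_out (T.anc_ne_root (t := n) (Nat.succ_pos i) hi)
    rwa [T.par_anc hi] at this
  have hAout : ∀ i, 0 < i → i ≤ T.dep n → T.A (T.anc n i) ⊆ T.Out (T.anc n i) :=
    fun i h0 hi => (T.adh_par _).trans (T.par_out (T.anc_ne_root h0 hi))
  have hnext : ∀ i, i ≤ T.dep n → ∀ g, (i < T.dep n → DependsOn g (T.Out (T.anc n (i + 1)))) →
      X.E (fun σ => bf (ev x) σ * g σ) = X.E (fun σ => q (i + 1) σ * g σ) := by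
    intro i hi g hg
    rcases hi.eq_or_lt with e | e
    · rw [e, hq5]
    · exact (hq4 _ (Nat.succ_pos i) e).2 g (hg e)
  obtain ⟨th, hth, hsum⟩ := hm q (j + 1) (T.dep n + 1) (by omega)
    (fun i => (hq2 i).elim fun _ h => exists_vals h) fun i h1 h2 φ => by
      obtain ⟨h3, h4⟩ := hq4 i (by omega) (by omega)
      have h5 : DependsOn (fun σ => φ (q i σ)) (T.A (T.anc n i)) := fun σ τ e => by
        simp only [h3 e]
      have h6 := h4 _ (h5.mono (hAout i (by omega) (by omega)))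
      have h7 := hnext i (by omega) _ fun h => h5.mono ((T.adh_bag _).trans (hout i h))
      have h8 : (fun ω => (q (i + 1) ω - q i ω) * φ (q i ω)) =
          (fun σ => q (i + 1) σ * φ (q i σ)) - fun σ => q i σ * φ (q i σ) := by
        funext σ; simp only [Pi.sub_apply]; ring
      rw [h8, map_sub, ← h6, ← h7, sub_self]
  let F : ℕ → (V → Bool) → Bool := fun i σ => decide (th i < q i σ)
  have hmin : ∀ i, ∃ a : V, (i = T.dep n + 1 → a = x) ∧ (i ≤ T.dep n →
      a ∈ T.A (T.anc n i) ∧ ∀ u ∈ T.A (T.anc n i), X.ρ (F i) (ev a) ≤ X.ρ (F i) (ev u)) := by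
    intro i
    by_cases h : i ≤ T.dep n
    · obtain ⟨c, hc⟩ := Finite.exists_min fun c => X.ρ (F i) (ev (T.adh (T.anc n i) c))
      refine ⟨T.adh (T.anc n i) c, fun e => by omega, fun _ => ⟨⟨c, rfl⟩, ?_⟩⟩
      rintro _ ⟨c', rfl⟩
      exact hc c'
    · exact ⟨x, fun _ => rfl, fun h' => (h h').elim⟩
  choose a ha1 ha2 using hmin
  have hT : Trail (X.path n) (j + 1) x F a := by
    refine ⟨Nat.succ_pos j, ?_, fun i h1 h2 => ⟨fun σ τ e => ?_, ?_⟩,
      fun i _ h2 => (ha2 i h2).1, fun i _ h2 => (ha2 i h2).2, ?_, ha1 _ rfl⟩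
    · change x ∈ T.B (T.anc n (T.dep n))
      rwa [T.anc_self]
    · simp only [F, (hq4 i (by omega) h2).1 e]
    · obtain ⟨h3, h4⟩ := hq4 i (by omega) h2
      have := X.small_z0 h3 (hq1 i z0).1 fun g hg => h4 g (hg.mono (hAout i (by omega) h2))
      have h5 := (hth i).1
      simp only [F, decide_eq_false_iff_not, not_lt]
      linarith
    · funext σ
      have h5 := hth (T.dep n + 1)
      change decide (th (T.dep n + 1) < q (T.dep n + 1) σ) = σ x
      rw [hq5]
      cases e : σ x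
      · simp only [bf, ev, e, decide_eq_false_iff_not, not_lt]
        norm_num; linarith
      · simp only [bf, ev, e, decide_eq_true_eq]
        norm_num; linarith
  have hmain := hT.main hc.hβ hc.hβ1 hc.hC hc.hM hc.hK hc.hW1 hc.hW2 hc.hκ.le hc.hκ1 hc.hκ2
    le_rfl (by omega)
  refine ⟨q (j + 1), th (j + 1), a (j + 1), hq1 _, (hth _).1, (hth _).2, ?_, ?_,
    hmain.trans ?_, hnext j hj⟩
  · rcases hj.eq_or_lt with e | e
    · rw [e, ha1 _ rfl, T.anc_self]; exact hx
    · rw [← T.par_anc e]; exact T.adh_par _ (ha2 _ e).1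
  · rcases hj.eq_or_lt with e | e
    · rw [e, hq5, T.anc_self]; exact dep_bf (dep_ev hx)
    · rw [← T.par_anc e]; exact (hq4 _ (Nat.succ_pos j) e).1.mono (T.adh_par _)
  · have h1 : Trail.G (X.path n) F (j + 1) (T.dep n + 1) = Z * ∑ i ∈ Ico (j + 1) (T.dep n + 1),
        X.E (fun ω => if (th i < q i ω ↔ th (i + 1) < q (i + 1) ω) then 0 else 1) := by
      rw [mul_sum]
      refine sum_congr rfl fun i _ => ?_
      change Z * X.E _ = _
      congr 2
      funext σ
      simp only [dis, F, decide_eq_decide]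
    have h2 := hnext j hj (fun _ => 1) fun _ _ _ _ => rfl
    have h3 : (fun ω => q (T.dep n + 1) ω ^ 2) = fun σ => bf (ev x) σ * 1 := by
      funext σ; rw [hq5]; unfold bf; split_ifs <;> norm_num
    have h4 : (fun σ => q (j + 1) σ * (1 - q (j + 1) σ)) =
        (fun σ => q (j + 1) σ * 1) - fun σ => q (j + 1) σ ^ 2 := by
      funext σ; simp only [Pi.sub_apply]; ring
    rw [h3, h2] at hsum
    rw [h1, h4, map_sub, mul_left_comm]
    exact mul_le_mul_of_nonneg_left hsum X.Z_pos.le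

/-- The lower bound. -/
theorem lower {M K κ Cm : ℝ} (hCm : 0 ≤ Cm)
    (hc : Consts (beta k) (J * Fintype.card (Ft k) : ℕ) W M K κ)
    (hm : ∀ (q : ℕ → (V → Bool) → ℝ) (j₀ n : ℕ), j₀ ≤ n →
      (∀ j, ∃ Q : Finset ℝ, Q.card ≤ 2 ^ (k + 1) ∧ ∀ ω, q j ω ∈ Q) →
      (∀ j, j₀ ≤ j → j < n → ∀ φ : ℝ → ℝ,
        X.E (fun ω => (q (j + 1) ω - q j ω) * φ (q j ω)) = 0) →
      ∃ th : ℕ → ℝ, (∀ j, 1 / 4 ≤ th j ∧ th j ≤ 3 / 4) ∧
        ∑ j ∈ Finset.Ico j₀ n,
            X.E (fun ω => if (th j < q j ω ↔ th (j + 1) < q (j + 1) ω) then 0 else 1) ≤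
          Cm * (X.E (fun ω => q n ω ^ 2) - X.E (fun ω => q j₀ ω ^ 2))) (x y : V) :
    κ * (beta k / 40 * d x y) ≤ (3 * Cm + 16 * κ) * X.ρ (ev x) (ev y) := by
  classical
  obtain ⟨n, hx⟩ := T.cover x
  obtain ⟨n', hy⟩ := T.cover y
  let Q : ℕ → Prop := fun i => T.anc n i = T.anc n' i
  set j := Nat.findGreatest Q (min (T.dep n) (T.dep n')) with hj
  have hj1 : j ≤ min (T.dep n) (T.dep n') := Nat.findGreatest_le _
  have hj2 : T.anc n j = T.anc n' j :=
    Nat.findGreatest_spec (P := Q) (Nat.zero_le _) (by simp only [Q, T.anc_zero])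
  obtain ⟨p, s, a, p1, s1, s2, ha, p2, p3, p4⟩ := X.side hc hm hx (j := j) (by omega)
  obtain ⟨q, t, b, q1, t1, t2, hb, q2, q3, q4⟩ := X.side hc hm hy (j := j) (by omega)
  have e1 := p4 (fun _ => 1) fun _ _ _ _ => rfl
  have e2 := q4 (fun _ => 1) fun _ _ _ _ => rfl
  have e3 := p4 (bf (ev y)) fun h => dep_bf (dep_ev ⟨n', fun h' => by
    have h1 := h'.spec
    rw [T.dep_anc h] at h1
    exact Nat.findGreatest_is_greatest (P := Q) (Nat.lt_succ_self j) (by omega) h1.2.symm, hy⟩)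
  have e4 := q4 p fun h => p2.mono (by
    have := T.par_out (T.anc_ne_root (t := n') (Nat.succ_pos j) h)
    rwa [T.par_anc h, ← hj2] at this)
  have e5 : X.E (dis (ev x) (ev y)) = X.E fun σ => p σ + q σ - 2 * (p σ * q σ) := by
    have h1 : dis (ev x) (ev y) = (fun σ => bf (ev x) σ * 1) + (fun σ => bf (ev y) σ * 1) -
        (2 : ℝ) • fun σ => bf (ev x) σ * bf (ev y) σ := by
      funext σ
      simp only [dis, bf, Pi.add_apply, Pi.sub_apply, Pi.smul_apply, smul_eq_mul]
      cases ev x σ <;> cases ev y σ <;> norm_num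
    have h2 : (fun σ => p σ + q σ - 2 * (p σ * q σ)) = (fun σ => p σ * 1) + (fun σ => q σ * 1) -
        (2 : ℝ) • fun σ => q σ * p σ := by
      funext σ
      simp only [Pi.add_apply, Pi.sub_apply, Pi.smul_apply, smul_eq_mul]
      ring
    have h3 : (fun σ => p σ * bf (ev y) σ) = fun σ => bf (ev y) σ * p σ := by
      funext σ; ring
    rw [h1, h2, map_sub, map_sub, map_add, map_add, map_smul, map_smul, e1, e2, e3, h3, e4]
  have hZ := X.Z_pos.le
  have l1 : (Z * X.E fun σ => p σ * (1 - p σ)) + (Z * X.E fun σ => q σ * (1 - q σ)) ≤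
      X.ρ (ev x) (ev y) := by
    rw [ρ, e5, ← mul_add, ← map_add]
    refine mul_le_mul_of_nonneg_left (X.ex.mono fun σ => ?_) hZ
    simp only [Pi.add_apply]
    nlinarith [sq_nonneg (p σ - q σ)]
  have l2 : X.ρ (fun σ => decide (s < p σ)) (fun σ => decide (t < q σ)) ≤
      16 * X.ρ (ev x) (ev y) := by
    rw [ρ, ρ, e5, mul_left_comm, ← smul_eq_mul 16, ← map_smul]
    refine mul_le_mul_of_nonneg_left (X.ex.mono fun σ => ?_) hZ
    obtain ⟨h1, h2⟩ := p1 σ
    obtain ⟨h3, h4⟩ := q1 σ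
    simp only [dis, Pi.smul_apply, smul_eq_mul, decide_eq_decide]
    split_ifs with h
    · nlinarith [mul_nonneg h1 (sub_nonneg.2 h4), mul_nonneg h3 (sub_nonneg.2 h2)]
    · by_cases h5 : s < p σ
      · have h6 : q σ ≤ t := not_lt.1 fun h6 => h ⟨fun _ => h6, fun _ => h5⟩
        nlinarith [mul_nonneg h3 (sub_nonneg.2 h2),
          mul_nonneg (show 0 ≤ p σ - 1 / 4 by linarith) (show 0 ≤ 3 / 4 - q σ by linarith)]
      · have h6 : t < q σ := by
          by_contra h6
          exact h ⟨fun h => (h5 h).elim, fun h => (h6 h).elim⟩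
        nlinarith [mul_nonneg h1 (sub_nonneg.2 h4),
          mul_nonneg (show 0 ≤ q σ - 1 / 4 by linarith) (show 0 ≤ 3 / 4 - p σ by linarith)]
  have l3 : beta k / 40 * d a b ≤ X.ρ (ev a) (ev b) :=
    (X.path n).r1 hc.hβ.le hc.W24 (j := j) (by omega) ha (by rw [← hj2] at hb; exact hb)
  have l4 := X.pmet.tri (ev a) (fun σ => decide (s < p σ)) (ev b)
  have l5 := X.pmet.tri (fun σ => decide (s < p σ)) (fun σ => decide (t < q σ)) (ev b)
  rw [X.pmet.comm (ev a) fun σ => decide (s < p σ)] at l4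
  have l6 : d x y ≤ d x a + d a b + d y b := by
    linarith [X.hd.tri x a y, X.hd.tri a b y, X.hd.comm b y]
  have l7 := X.pmet.nonneg (fun σ => decide (s < p σ)) (ev a)
  have l8 := X.pmet.nonneg (fun σ => decide (t < q σ)) (ev b)
  have l9 := X.pmet.nonneg (ev x) (ev y)
  have hκ := hc.hκ
  have hκ1 := hc.hκ1
  have m1 := mul_le_mul_of_nonneg_left l6 (show 0 ≤ κ * (beta k / 40) by
    have := hc.hβ; positivity)
  have m2 := mul_le_mul_of_nonneg_left l1 hCm
  have m3 := mul_le_mul_of_nonneg_left (l3.trans (l4.trans (add_le_add le_rfl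
    (l5.trans (add_le_add l2 le_rfl))))) hκ.le
  nlinarith [mul_nonneg hCm l9, mul_nonneg (show 0 ≤ K - κ by linarith) l7,
    mul_nonneg (show 0 ≤ K - κ by linarith) l8]

end World

theorem main (glue : GlueStmt) (markov : MarkovStmt) : MainStmt := by
  intro k
  obtain ⟨s, M, K, κ, hc⟩ := exists_consts k
  obtain ⟨Cm, hCm, hm⟩ := markov (2 ^ (k + 1))
  have hβ := hc.hβ
  have hκ := hc.hκ
  have hL : 0 < (3 * Cm + 16 * κ) / (κ * (beta k / 40)) := by positivity
  refine ⟨(3 * Cm + 16 * κ) / (κ * (beta k / 40)) * (nblk k s * Fintype.card (Ft k) : ℕ),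
    by positivity, fun V ι _ _ d hd T => ?_⟩
  obtain ⟨Z, ⟨X⟩⟩ := exists_world glue hd T s
  refine ⟨X.E, (3 * Cm + 16 * κ) / (κ * (beta k / 40)) * Z, X.ex,
    (mul_pos hL X.Z_pos).le, fun x y => ?_⟩
  have h1 := X.lower hCm.le hc (hm _ X.E X.ex) x y
  have h2 := mul_le_mul_of_nonneg_left (X.up x y) hL.le
  rw [mul_assoc, mul_assoc]
  refine ⟨?_, h2⟩
  change _ ≤ _ * X.ρ (ev x) (ev y)
  rw [div_mul_eq_mul_div, le_div_iff₀ (by positivity)]
  linarith

end Crest.Agent.N206.TW
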